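import Mathlib

/-! A derandomised multiplicative Chernoff bound. -/

namespace Vale.Agent.Lib.H20

open Finset Real MeasureTheory

variable {Ω : Type*} [MeasurableSpace Ω]

theorem exp_pos_bound {l h : ℝ} (hl0 : 0 ≤ l) (hl1 : l ≤ 1) (h0 : 0 ≤ h) (h1 : h ≤ 1) :
    Real.exp (l * h) ≤ 1 + (l + l ^ 2) * h := by
  have hconv := convexOn_exp.2 (Set.mem_univ (0:ℝ)) (Set.mem_univ l)
    (show 0 ≤ 1 - h by linarith) h0 (by ring)
  simp only [smul_eq_mul, mul_zero, zero_add, Real.exp_zero, mul_one] at hconv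
  have h2 := Real.abs_exp_sub_one_sub_id_le (x := l) (by rw [abs_of_nonneg hl0]; exact hl1)
  have h3 := (abs_le.mp h2).2
  rw [mul_comm l h]
  nlinarith

theorem exp_neg_bound {l h : ℝ} (hl0 : 0 ≤ l) (hl1 : l ≤ 1) (h0 : 0 ≤ h) (h1 : h ≤ 1) :
    Real.exp (-(l * h)) ≤ 1 - (l - l ^ 2) * h := by
  have hconv := convexOn_exp.2 (Set.mem_univ (0:ℝ)) (Set.mem_univ (-l))
    (show 0 ≤ 1 - h by linarith) h0 (by ring)
  simp only [smul_eq_mul, mul_zero, zero_add, Real.exp_zero, mul_one] at hconv
  have h2 := Real.abs_exp_sub_one_sub_id_le (x := -l) (by rw [abs_neg, abs_of_nonneg hl0]; exact hl1)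
  have h3 := (abs_le.mp h2).2
  have e : -(l * h) = h * -l := by ring
  rw [e]
  nlinarith

/-- **Derandomised Chernoff bound.** -/
theorem sampling {J : Type*} (P : Measure Ω) [IsProbabilityMeasure P] (T : Finset J)
    (h : J → Ω → ℝ) (hm : ∀ j ∈ T, Measurable (h j)) (h0 : ∀ j ∈ T, ∀ ω, 0 ≤ h j ω)
    (h1 : ∀ j ∈ T, ∀ ω, h j ω ≤ 1) (θ : ℝ) (hθ : ∀ j ∈ T, ∫ ω, h j ω ∂P = θ)
    (ε : ℝ) (hε0 : 0 < ε) (hε1 : ε ≤ 1) (m : ℕ)
    (hmε : 4 * Real.log (2 * T.card) ≤ ε ^ 2 * (m * θ)) (hT : T.Nonempty) :
    ∃ ω : Fin m → Ω, ∀ j ∈ T, (1 - ε) * (m * θ) ≤ ∑ t, h j (ω t) ∧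
      ∑ t, h j (ω t) ≤ (1 + ε) * (m * θ) := by
  classical
  set l := ε / 2 with hl
  have hl0 : 0 < l := by positivity
  have hl1 : l ≤ 1 := by linarith
  -- potential argument
  have key : ∀ k : ℕ, ∃ ω : Fin k → Ω,
      ∑ j ∈ T, (Real.exp (l * ∑ t, h j (ω t) - k * ((l + l ^ 2) * θ))
        + Real.exp (-(l * ∑ t, h j (ω t)) + k * ((l - l ^ 2) * θ))) ≤ 2 * T.card := by
    intro k
    induction k with
    | zero =>
      refine ⟨Fin.elim0, ?_⟩
      simp
      apply le_of_eq
      ring
    | succ k ih =>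
      obtain ⟨ω, hω⟩ := ih
      set a : J → ℝ := fun j => Real.exp (l * ∑ t, h j (ω t) - k * ((l + l ^ 2) * θ)) with ha
      set b : J → ℝ := fun j => Real.exp (-(l * ∑ t, h j (ω t)) + k * ((l - l ^ 2) * θ)) with hb
      have ha0 : ∀ j, 0 ≤ a j := fun j => (Real.exp_pos _).le
      have hb0 : ∀ j, 0 ≤ b j := fun j => (Real.exp_pos _).le
      let F : J → Ω → ℝ := fun j x =>
        a j * (Real.exp (l * h j x) * Real.exp (-((l + l ^ 2) * θ)))
        + b j * (Real.exp (-(l * h j x)) * Real.exp ((l - l ^ 2) * θ))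
      have hi1 : ∀ j ∈ T, Integrable (fun x => Real.exp (l * h j x)) P := by
        intro j hj
        apply Integrable.of_bound (C := Real.exp l)
          (((hm j hj).const_mul l).exp).aestronglyMeasurable
        filter_upwards with x
        rw [Real.norm_eq_abs, Real.abs_exp]
        apply Real.exp_le_exp.mpr
        have := h1 j hj x
        nlinarith
      have hi2 : ∀ j ∈ T, Integrable (fun x => Real.exp (-(l * h j x))) P := by
        intro j hj
        apply Integrable.of_bound (C := 1)
          (((hm j hj).const_mul l).neg.exp).aestronglyMeasurable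
        filter_upwards with x
        rw [Real.norm_eq_abs, Real.abs_exp]
        rw [Real.exp_le_one_iff]
        have h2 := h0 j hj x
        have h3 : 0 ≤ l * h j x := mul_nonneg hl0.le h2
        change -(l * h j x) ≤ 0
        linarith
      have hih : ∀ j ∈ T, Integrable (h j) P := by
        intro j hj
        apply Integrable.of_bound (C := 1) (hm j hj).aestronglyMeasurable
        filter_upwards with x
        rw [Real.norm_eq_abs, abs_of_nonneg (h0 j hj x)]
        exact h1 j hj x
      have hFi : ∀ j ∈ T, Integrable (F j) P := by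
        intro j hj
        exact (((hi1 j hj).mul_const _).const_mul _).add (((hi2 j hj).mul_const _).const_mul _)
      have hb1 : ∀ j ∈ T, ∫ x, Real.exp (l * h j x) ∂P ≤ Real.exp ((l + l ^ 2) * θ) := by
        intro j hj
        calc ∫ x, Real.exp (l * h j x) ∂P ≤ ∫ x, (1 + (l + l ^ 2) * h j x) ∂P := by
              apply integral_mono (hi1 j hj)
              · exact (integrable_const _).add ((hih j hj).const_mul _)
              · intro x
                exact exp_pos_bound hl0.le hl1 (h0 j hj x) (h1 j hj x)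
          _ = 1 + (l + l ^ 2) * θ := by
              rw [integral_add (integrable_const _) ((hih j hj).const_mul _), integral_const_mul,
                hθ j hj]
              simp
          _ ≤ Real.exp ((l + l ^ 2) * θ) := by
              have := Real.add_one_le_exp ((l + l ^ 2) * θ)
              linarith
      have hb2 : ∀ j ∈ T, ∫ x, Real.exp (-(l * h j x)) ∂P ≤ Real.exp (-((l - l ^ 2) * θ)) := by
        intro j hj
        calc ∫ x, Real.exp (-(l * h j x)) ∂P ≤ ∫ x, (1 - (l - l ^ 2) * h j x) ∂P := by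
              apply integral_mono (hi2 j hj)
              · exact (integrable_const _).sub ((hih j hj).const_mul _)
              · intro x
                exact exp_neg_bound hl0.le hl1 (h0 j hj x) (h1 j hj x)
          _ = 1 - (l - l ^ 2) * θ := by
              rw [integral_sub (integrable_const _) ((hih j hj).const_mul _), integral_const_mul,
                hθ j hj]
              simp
          _ ≤ Real.exp (-((l - l ^ 2) * θ)) := by
              have := Real.add_one_le_exp (-((l - l ^ 2) * θ))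
              linarith
      have hFb : ∀ j ∈ T, ∫ x, F j x ∂P ≤ a j + b j := by
        intro j hj
        have e : ∫ x, F j x ∂P = a j * ((∫ x, Real.exp (l * h j x) ∂P) * Real.exp (-((l + l ^ 2) * θ)))
            + b j * ((∫ x, Real.exp (-(l * h j x)) ∂P) * Real.exp ((l - l ^ 2) * θ)) := by
          simp only [F]
          rw [integral_add (((hi1 j hj).mul_const _).const_mul _)
            (((hi2 j hj).mul_const _).const_mul _), integral_const_mul, integral_const_mul,
            integral_mul_const, integral_mul_const]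
        rw [e]
        have c1 : (∫ x, Real.exp (l * h j x) ∂P) * Real.exp (-((l + l ^ 2) * θ)) ≤ 1 := by
          calc _ ≤ Real.exp ((l + l ^ 2) * θ) * Real.exp (-((l + l ^ 2) * θ)) :=
                mul_le_mul_of_nonneg_right (hb1 j hj) (Real.exp_pos _).le
            _ = 1 := by rw [← Real.exp_add]; simp
        have c2 : (∫ x, Real.exp (-(l * h j x)) ∂P) * Real.exp ((l - l ^ 2) * θ) ≤ 1 := by
          calc _ ≤ Real.exp (-((l - l ^ 2) * θ)) * Real.exp ((l - l ^ 2) * θ) :=
                mul_le_mul_of_nonneg_right (hb2 j hj) (Real.exp_pos _).le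
            _ = 1 := by rw [← Real.exp_add]; simp
        have := mul_le_mul_of_nonneg_left c1 (ha0 j)
        have := mul_le_mul_of_nonneg_left c2 (hb0 j)
        linarith
      obtain ⟨x, hx⟩ := exists_le_integral (μ := P) (f := fun x => ∑ j ∈ T, F j x)
        (integrable_finsetSum _ hFi)
      rw [integral_finsetSum _ hFi] at hx
      refine ⟨Fin.snoc ω x, ?_⟩
      have e2 : ∀ j, ∑ t : Fin (k + 1), h j ((Fin.snoc ω x : Fin (k + 1) → Ω) t)
          = ∑ t, h j (ω t) + h j x := by
        intro j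
        rw [Fin.sum_univ_castSucc]
        simp
      have e3 : ∀ j, (Real.exp (l * ∑ t, h j ((Fin.snoc ω x : Fin (k + 1) → Ω) t)
          - (k + 1 : ℕ) * ((l + l ^ 2) * θ))
        + Real.exp (-(l * ∑ t, h j ((Fin.snoc ω x : Fin (k + 1) → Ω) t))
          + (k + 1 : ℕ) * ((l - l ^ 2) * θ))) = F j x := by
        intro j
        simp only [e2, F, ha, hb]
        rw [← Real.exp_add, ← Real.exp_add, ← Real.exp_add, ← Real.exp_add]
        congr 1
        · congr 1; push_cast; ring
        · congr 1; push_cast; ring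
      calc _ = ∑ j ∈ T, F j x := Finset.sum_congr rfl (fun j _ => e3 j)
        _ ≤ ∑ j ∈ T, ∫ x, F j x ∂P := hx
        _ ≤ ∑ j ∈ T, (a j + b j) := Finset.sum_le_sum hFb
        _ ≤ 2 * T.card := hω
  obtain ⟨ω, hω⟩ := key m
  refine ⟨ω, ?_⟩
  intro j hj
  have hTpos : (0:ℝ) < 2 * T.card := by
    have : (0:ℝ) < T.card := by exact_mod_cast Finset.card_pos.mpr hT
    linarith
  have hterm : Real.exp (l * ∑ t, h j (ω t) - m * ((l + l ^ 2) * θ))
        + Real.exp (-(l * ∑ t, h j (ω t)) + m * ((l - l ^ 2) * θ)) ≤ 2 * T.card := by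
    refine le_trans ?_ hω
    exact Finset.single_le_sum (f := fun j => Real.exp (l * ∑ t, h j (ω t) - m * ((l + l ^ 2) * θ))
        + Real.exp (-(l * ∑ t, h j (ω t)) + m * ((l - l ^ 2) * θ)))
        (fun i _ => by positivity) hj
  have t1 : Real.exp (l * ∑ t, h j (ω t) - m * ((l + l ^ 2) * θ)) ≤ 2 * T.card :=
    le_trans (le_add_of_nonneg_right (Real.exp_pos _).le) hterm
  have t2 : Real.exp (-(l * ∑ t, h j (ω t)) + m * ((l - l ^ 2) * θ)) ≤ 2 * T.card :=
    le_trans (le_add_of_nonneg_left (Real.exp_pos _).le) hterm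
  have s1 := (Real.le_log_iff_exp_le hTpos).mpr t1
  have s2 := (Real.le_log_iff_exp_le hTpos).mpr t2
  have e4 : ε = 2 * l := by rw [hl]; ring
  rw [e4] at hmε ⊢
  constructor
  · -- lower
    have : l * ((1 - 2 * l) * (m * θ)) ≤ l * ∑ t, h j (ω t) := by nlinarith
    exact le_of_mul_le_mul_left this hl0
  · have : l * ∑ t, h j (ω t) ≤ l * ((1 + 2 * l) * (m * θ)) := by nlinarith
    exact le_of_mul_le_mul_left this hl0

end Vale.Agent.Lib.H20
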