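import Vale.Agent.Lib.H20.Nets
import Vale.Agent.Lib.H20.Sampling

/-! From the multi-scale bound to sampling of coordinates. -/

namespace Vale.Agent.Lib.H20

open Finset Real MeasureTheory

variable {V : Type*} [Fintype V] [DecidableEq V] [MetricSpace V] {Ω : Type*} [MeasurableSpace Ω]

/-- The constant of the sensitivity bound. -/
noncomputable def Sst (p : ℝ) : ℝ := 20 * Kst p (5 ^ p)

theorem Sst_pos {p : ℝ} (hp : 1 ≤ p) : 0 < Sst p := by
  unfold Sst
  have := Kst_pos (p := p) (B := 5 ^ p) hp (by positivity)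
  positivity

theorem core {p : ℝ} (hp : 1 ≤ p) (μ : Measure Ω) (F : V → Ω → ℝ) (hF : ∀ i, Measurable (F i))
    (hint : ∀ i j, Integrable (fun ω => |F i ω - F j ω| ^ p) μ)
    (hdist : ∀ i j, ∫ ω, |F i ω - F j ω| ^ p ∂μ = dist i j ^ p)
    (hn : 2 ≤ Fintype.card V) {ε : ℝ} (hε0 : 0 < ε) (hε1 : ε ≤ 1) (m : ℕ)
    (hm : 12 * Sst p * (Fintype.card V * Real.log (Fintype.card V)) ≤ ε ^ 2 * m) :
    ∃ (ω : Fin m → Ω) (c : Fin m → ℝ), (∀ t, 0 ≤ c t) ∧ ∀ i j,
      (1 - ε) * dist i j ^ p ≤ ∑ t, c t * |F i (ω t) - F j (ω t)| ^ p ∧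
      ∑ t, c t * |F i (ω t) - F j (ω t)| ^ p ≤ (1 + ε) * dist i j ^ p := by
  classical
  have hp0 : 0 < p := by linarith
  set n : ℕ := Fintype.card V with hn_def
  let T : Finset (V × V) := Finset.univ.filter (fun e => e.1 ≠ e.2)
  have hTne : T.Nonempty := by
    obtain ⟨i, j, hij⟩ := Fintype.exists_pair_of_one_lt_card (by omega : 1 < Fintype.card V)
    exact ⟨(i, j), by simp [T, hij]⟩
  have hTdist : ∀ e ∈ T, 0 < dist e.1 e.2 ^ p := by
    intro e he
    have : e.1 ≠ e.2 := by simpa [T] using he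
    exact Real.rpow_pos_of_pos (dist_pos.mpr this) p
  let a : V × V → Ω → ℝ := fun e ω => |F e.1 ω - F e.2 ω| ^ p / dist e.1 e.2 ^ p
  have ha : ∀ e, Measurable (a e) := fun e =>
    ((((hF e.1).sub (hF e.2)).abs).pow_const _).div_const _
  have ha0 : ∀ e ω, 0 ≤ a e ω := fun e ω =>
    div_nonneg (Real.rpow_nonneg (abs_nonneg _) _) (Real.rpow_nonneg dist_nonneg _)
  have haint : ∀ e, Integrable (a e) μ := fun e => (hint _ _).div_const _
  let s : Ω → ℝ := fun ω => T.sup' hTne (fun e => a e ω)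
  have hs : Measurable s := by
    have : s = T.sup' hTne a := by
      ext ω
      simp [s, Finset.sup'_apply]
    rw [this]
    exact Finset.measurable_sup' hTne (fun e _ => ha e)
  have hs_ge : ∀ e ∈ T, ∀ ω, a e ω ≤ s ω := fun e he ω =>
    Finset.le_sup' (f := fun e => a e ω) he
  have hs0 : ∀ ω, 0 ≤ s ω := by
    intro ω
    obtain ⟨e, he⟩ := hTne
    exact (ha0 e ω).trans (hs_ge e he ω)
  have hs_attain : ∀ ω, ∃ e ∈ T, a e ω = s ω := by
    intro ω
    obtain ⟨e, he, h⟩ := Finset.exists_mem_eq_sup' hTne (fun e => a e ω)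
    exact ⟨e, he, h.symm⟩
  have hs_le : ∀ ω, s ω ≤ ∑ e ∈ T, a e ω := by
    intro ω
    obtain ⟨e, he, h⟩ := hs_attain ω
    rw [← h]
    exact Finset.single_le_sum (f := fun e => a e ω) (fun e _ => ha0 e ω) he
  have hsint : Integrable s μ := by
    apply Integrable.mono (integrable_finsetSum T (fun e _ => haint e)) hs.aestronglyMeasurable
    filter_upwards with ω
    rw [Real.norm_eq_abs, Real.norm_eq_abs, abs_of_nonneg (hs0 ω),
      abs_of_nonneg (Finset.sum_nonneg (fun e _ => ha0 e ω))]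
    exact hs_le ω
  -- bound by s
  have hFs : ∀ i j ω, |F i ω - F j ω| ^ p ≤ s ω * dist i j ^ p := by
    intro i j ω
    by_cases hij : i = j
    · subst hij
      simp only [sub_self, abs_zero, dist_self]
      rw [Real.zero_rpow hp0.ne', mul_zero]
    · have he : (i, j) ∈ T := by simp [T, hij]
      have h1 := hs_ge _ he ω
      have h2 := hTdist _ he
      simp only [a] at h1 h2
      rwa [div_le_iff₀ h2] at h1
  -- normalised functions
  let G : V → Ω → ℝ := fun i ω => F i ω / (s ω) ^ (1 / p)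
  have hG : ∀ i, Measurable (G i) := fun i => (hF i).div (hs.pow_const _)
  have hGp : ∀ i j ω, |G i ω - G j ω| ^ p = |F i ω - F j ω| ^ p / s ω := by
    intro i j ω
    simp only [G]
    rw [← sub_div, abs_div, Real.div_rpow (abs_nonneg _) (abs_nonneg _),
      abs_of_nonneg (Real.rpow_nonneg (hs0 ω) _), ← Real.rpow_mul (hs0 ω),
      one_div_mul_cancel hp0.ne', Real.rpow_one]
  have hsG : ∀ i j ω, s ω * |G i ω - G j ω| ^ p = |F i ω - F j ω| ^ p := by
    intro i j ω
    rw [hGp]
    rcases eq_or_lt_of_le (hs0 ω) with h | h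
    · have h1 := hFs i j ω
      rw [← h, zero_mul] at h1
      have h2 : |F i ω - F j ω| ^ p = 0 := le_antisymm h1 (Real.rpow_nonneg (abs_nonneg _) _)
      rw [h2]; simp
    · field_simp
  have hGle : ∀ i j ω, |G i ω - G j ω| ^ p ≤ dist i j ^ p := by
    intro i j ω
    rw [hGp]
    rcases eq_or_lt_of_le (hs0 ω) with h | h
    · rw [← h, div_zero]; exact Real.rpow_nonneg dist_nonneg _
    · rw [div_le_iff₀ h, mul_comm]; exact hFs i j ω
  have hGlip : ∀ i j ω, |G i ω - G j ω| ≤ dist i j := by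
    intro i j ω
    exact (Real.rpow_le_rpow_iff (abs_nonneg _) dist_nonneg hp0).mp (hGle i j ω)
  -- the measure ν
  let dens : Ω → ENNReal := fun ω => ENNReal.ofReal (s ω)
  have hdens : Measurable dens := hs.ennreal_ofReal
  set ν : Measure Ω := μ.withDensity dens with hν_def
  have : IsFiniteMeasure ν := isFiniteMeasure_withDensity_ofReal hsint.2
  have hνint : ∀ f : Ω → ℝ, ∫ ω, f ω ∂ν = ∫ ω, s ω * f ω ∂μ := by
    intro f
    rw [hν_def, integral_withDensity_eq_integral_toReal_smul hdens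
      (by filter_upwards with ω; exact ENNReal.ofReal_lt_top)]
    apply integral_congr_ae
    filter_upwards with ω
    simp only [dens]
    rw [ENNReal.toReal_ofReal (hs0 ω), smul_eq_mul]
  have hmom : ∀ i j, ∫ ω, |G i ω - G j ω| ^ p ∂ν = dist i j ^ p := by
    intro i j
    rw [hνint]
    simp only [hsG]
    exact hdist i j
  have htight : ∀ᵐ ω ∂ν, ∃ i j, i ≠ j ∧ dist i j ≤ |G i ω - G j ω| := by
    rw [hν_def, ae_withDensity_iff hdens]
    filter_upwards with ω hω
    have hsω : 0 < s ω := by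
      simp only [dens, ne_eq, ENNReal.ofReal_eq_zero, not_le] at hω
      exact hω
    obtain ⟨e, he, h⟩ := hs_attain ω
    have hne : e.1 ≠ e.2 := by simpa [T] using he
    refine ⟨e.1, e.2, hne, ?_⟩
    rw [← Real.rpow_le_rpow_iff dist_nonneg (abs_nonneg _) hp0, hGp, le_div_iff₀ hsω, ← h]
    simp only [a]
    have := hTdist e he
    apply le_of_eq
    field_simp
  have hmass := multi_scale hp ν G hG (by filter_upwards with ω i j; exact hGlip i j ω)
    (fun i j => (hmom i j).le) htight
  set S : ℝ := ν.real Set.univ with hS_def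
  have hSpos : 0 < S := by
    by_contra hneg
    have hS0 : S = 0 := le_antisymm (not_lt.mp hneg) measureReal_nonneg
    have hν0 : ν = 0 := by
      rw [← Measure.measure_univ_eq_zero]
      rw [hS_def, measureReal_eq_zero_iff] at hS0
      exact hS0
    obtain ⟨e, he⟩ := hTne
    have h1 := hmom e.1 e.2
    rw [hν0, integral_zero_measure] at h1
    have h2 := hTdist e he
    linarith
  -- probability measure
  have hνuniv : ν Set.univ ≠ 0 := by
    intro h
    rw [hS_def, Measure.real, h] at hSpos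
    simp at hSpos
  have : NeZero ν := ⟨by
    intro h
    rw [h] at hνuniv
    simp at hνuniv⟩
  let P : Measure Ω := (ν Set.univ)⁻¹ • ν
  have : IsProbabilityMeasure P := isProbabilityMeasureSMul
  let h : V × V → Ω → ℝ := fun e ω => |G e.1 ω - G e.2 ω| ^ p / dist e.1 e.2 ^ p
  have hh : ∀ e, Measurable (h e) := fun e =>
    ((((hG e.1).sub (hG e.2)).abs).pow_const _).div_const _
  have hh0 : ∀ e ω, 0 ≤ h e ω := fun e ω =>
    div_nonneg (Real.rpow_nonneg (abs_nonneg _) _) (Real.rpow_nonneg dist_nonneg _)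
  have hh1 : ∀ e ω, h e ω ≤ 1 := fun e ω =>
    div_le_one_of_le₀ (hGle _ _ _) (Real.rpow_nonneg dist_nonneg _)
  have hPint : ∀ e ∈ T, ∫ ω, h e ω ∂P = 1 / S := by
    intro e he
    simp only [P, h]
    rw [integral_smul_measure, integral_div, hmom]
    rw [div_self (hTdist e he).ne', smul_eq_mul, mul_one, ENNReal.toReal_inv, one_div]
    rfl
  have hSle : S ≤ Sst p * n := hmass
  have hlogn : 0 < Real.log n := Real.log_pos (by exact_mod_cast (by omega : 1 < n))
  have hTcard : T.card ≤ n * n := by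
    calc T.card ≤ (Finset.univ : Finset (V × V)).card := Finset.card_filter_le _ _
      _ = n * n := by rw [Finset.card_univ, Fintype.card_prod]
  have hlogT : Real.log (2 * T.card) ≤ 3 * Real.log n := by
    have h1 : (2 * T.card : ℝ) ≤ (n:ℝ) ^ 3 := by
      have h2 : (T.card : ℝ) ≤ n * n := by exact_mod_cast hTcard
      have h3 : (2:ℝ) ≤ n := by exact_mod_cast hn
      have h4 : (0:ℝ) ≤ n * n := by positivity
      nlinarith
    have h5 : (0:ℝ) < 2 * T.card := by
      have : (0:ℝ) < T.card := by exact_mod_cast Finset.card_pos.mpr hTne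
      linarith
    calc Real.log (2 * T.card) ≤ Real.log ((n:ℝ) ^ 3) := Real.log_le_log h5 h1
      _ = 3 * Real.log n := by rw [Real.log_pow]; norm_num
  have hmε : 4 * Real.log (2 * T.card) ≤ ε ^ 2 * (m * (1 / S)) := by
    have h1 : 12 * Real.log n * S ≤ ε ^ 2 * m := by
      refine le_trans ?_ hm
      have : Real.log n * S ≤ Real.log n * (Sst p * n) :=
        mul_le_mul_of_nonneg_left hSle hlogn.le
      linarith
    have h2 : 12 * Real.log n ≤ ε ^ 2 * m / S := by
      rw [le_div_iff₀ hSpos]; exact h1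
    have e : ε ^ 2 * (m * (1 / S)) = ε ^ 2 * m / S := by ring
    rw [e]
    linarith
  have hmpos : 0 < (m:ℝ) := by
    have h1 : 0 < 12 * Sst p * (n * Real.log n) := by
      have := Sst_pos hp
      have hn0 : (0:ℝ) < n := by exact_mod_cast (by omega : 0 < n)
      positivity
    have h2 : 0 < ε ^ 2 * m := lt_of_lt_of_le h1 hm
    by_contra hneg
    push Not at hneg
    have : ε ^ 2 * m ≤ 0 := mul_nonpos_of_nonneg_of_nonpos (by positivity) hneg
    linarith
  obtain ⟨ω, hω⟩ := sampling P T h (fun e _ => hh e) (fun e _ => hh0 e) (fun e _ => hh1 e) (1 / S)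
    hPint ε hε0 hε1 m hmε hTne
  refine ⟨ω, fun t => S / m / s (ω t), fun t => by
    have := hs0 (ω t)
    positivity, ?_⟩
  intro i j
  by_cases hij : i = j
  · subst hij
    simp [Real.zero_rpow hp0.ne']
  · have he : (i, j) ∈ T := by simp [T, hij]
    have hd := hTdist _ he
    simp only at hd
    obtain ⟨h1, h2⟩ := hω _ he
    have e1 : ∑ t, S / m / s (ω t) * |F i (ω t) - F j (ω t)| ^ p
        = S / m * dist i j ^ p * ∑ t, h (i, j) (ω t) := by
      rw [Finset.mul_sum]
      apply Finset.sum_congr rfl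
      intro t _
      simp only [h]
      rw [hGp]
      field_simp
    rw [e1]
    have hc : 0 < S / m * dist i j ^ p := by positivity
    have e2 : S / m * dist i j ^ p * ((1 - ε) * (m * (1 / S))) = (1 - ε) * dist i j ^ p := by
      field_simp
    have e3 : S / m * dist i j ^ p * ((1 + ε) * (m * (1 / S))) = (1 + ε) * dist i j ^ p := by
      field_simp
    rw [← e2, ← e3]
    exact ⟨mul_le_mul_of_nonneg_left h1 hc.le, mul_le_mul_of_nonneg_left h2 hc.le⟩

end Vale.Agent.Lib.H20
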