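import Vale.Agent.Lib.H20.Numeric

/-! A function with bounded `p`-energy on an extremal weighted graph has small oscillation. -/

namespace Vale.Agent.Lib.H20

open Finset Real

variable {V : Type*} [DecidableEq V]

/-- edge mass: counting decomposition -/
theorem mass_split (U : Finset V) (w : V × V → ℝ) (hw : ∀ e, 0 ≤ w e) (g : V → ℝ) (s δ : ℝ) :
    ∑ e ∈ U ×ˢ U, w e ≤
      (∑ e ∈ (U \ U.filter (fun x => g x ≤ s)) ×ˢ (U \ U.filter (fun x => g x ≤ s)), w e)
      + (∑ e ∈ (U.filter (fun x => g x ≤ s + δ)) ×ˢ (U.filter (fun x => g x ≤ s + δ)), w e)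
      + ∑ e ∈ (U ×ˢ U).filter (fun e => δ < |g e.1 - g e.2|), w e := by
  classical
  rw [← Finset.sum_union_inter]
  have h1 : ∀ T : Finset (V × V), 0 ≤ ∑ e ∈ T, w e := fun T => Finset.sum_nonneg (fun e _ => hw e)
  refine le_trans ?_ (add_le_add (le_add_of_nonneg_right (h1 _)) le_rfl)
  rw [← Finset.sum_union_inter]
  refine le_trans ?_ (le_add_of_nonneg_right (h1 _))
  apply Finset.sum_le_sum_of_subset_of_nonneg
  · rintro ⟨x, y⟩ hxy
    rw [Finset.mem_product] at hxy
    obtain ⟨hx, hy⟩ := hxy
    simp only at hx hy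
    simp only [Finset.mem_union, Finset.mem_product, Finset.mem_sdiff, Finset.mem_filter, hx, hy,
      true_and]
    by_cases hxs : g x ≤ s
    · by_cases hys : g y ≤ s + δ
      · by_cases hδ : 0 ≤ δ
        · left; right; constructor <;> linarith
        · right
          push Not at hδ
          exact lt_of_lt_of_le hδ (abs_nonneg _)
      · right
        push Not at hys
        rw [abs_sub_comm]
        exact lt_of_lt_of_le (by linarith) (le_abs_self _)
    · by_cases hys : g y ≤ s
      · by_cases hxs' : g x ≤ s + δ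
        · by_cases hδ : 0 ≤ δ
          · left; right; constructor <;> linarith
          · right
            push Not at hδ
            exact lt_of_lt_of_le hδ (abs_nonneg _)
        · right
          push Not at hxs'
          exact lt_of_lt_of_le (by linarith) (le_abs_self _)
      · left; left; exact ⟨hxs, hys⟩
  · intro e _ _
    exact hw e

omit [DecidableEq V] in
theorem far_mass (U : Finset V) (w : V × V → ℝ) (hw : ∀ e, 0 ≤ w e) (g : V → ℝ) {δ p B : ℝ}
    (hδ : 0 < δ) (hp : 0 < p)
    (hB : ∑ e ∈ U ×ˢ U, w e * |g e.1 - g e.2| ^ p ≤ B) :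
    ∑ e ∈ (U ×ˢ U).filter (fun e => δ < |g e.1 - g e.2|), w e ≤ B / δ ^ p := by
  have hδp : 0 < δ ^ p := Real.rpow_pos_of_pos hδ p
  rw [le_div_iff₀ hδp, Finset.sum_mul]
  refine le_trans ?_ hB
  refine le_trans (Finset.sum_le_sum (g := fun e => w e * |g e.1 - g e.2| ^ p) ?_) ?_
  · intro e he
    rw [Finset.mem_filter] at he
    exact mul_le_mul_of_nonneg_left (Real.rpow_le_rpow hδ.le he.2.le hp.le) (hw e)
  · apply Finset.sum_le_sum_of_subset_of_nonneg (Finset.filter_subset _ _)
    intro e _ _
    exact mul_nonneg (hw e) (Real.rpow_nonneg (abs_nonneg _) _)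

/-- The sublevel set of an extremal weighted graph fills more than half quickly. -/
theorem sublevel_large {p B D : ℝ} (hp : 1 ≤ p) (hB : 0 < B) (hD : 0 < D)
    (U : Finset V) (w : V × V → ℝ) (hw : ∀ e, 0 ≤ w e)
    (hmax : ∀ W ⊆ U, ∑ e ∈ W ×ˢ W, w e
      ≤ D * ((W.card : ℝ) * phi (1 / (2 * (p + 1))) W.card))
    (hU : D * ((U.card : ℝ) * phi (1 / (2 * (p + 1))) U.card) ≤ ∑ e ∈ U ×ˢ U, w e)
    (g : V → ℝ) (hE : ∑ e ∈ U ×ˢ U, w e * |g e.1 - g e.2| ^ p ≤ B)
    (m : ℝ) (hm : ∃ x ∈ U, g x ≤ m) :
    ∃ t : ℝ, 0 ≤ t ∧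
      t ≤ (2 * B / (cst (1 / (2 * (p + 1))) * D)) ^ (1 / p) *
        (4 / ((1 - 2 ^ (-(1 / (2 * p)))) * cst (1 / (2 * (p + 1))))) ∧
      U.card < 2 * (U.filter (fun x => g x ≤ m + t)).card := by
  classical
  set α := 1 / (2 * (p + 1)) with hα_def
  set γ := 1 / (2 * p) with hγ_def
  have hp0 : 0 < p := by linarith
  have hα : 0 < α := by positivity
  have hγ : 0 < γ := by positivity
  have hα1 : α < 1 := by
    rw [hα_def, div_lt_one (by positivity)]
    linarith
  have hc := cst_pos hα
  have hγ2 : (2:ℝ) ^ (-γ) < 1 := Real.rpow_lt_one_of_one_lt_of_neg (by norm_num) (by linarith)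
  set κ := (2 * B / (cst α * D)) ^ (1 / p) with hκ_def
  have hκ : 0 < κ := by positivity
  set M := κ * (4 / ((1 - 2 ^ (-γ)) * cst α)) with hM_def
  have hq : 0 < (1 - (2:ℝ) ^ (-γ)) * cst α := mul_pos (by linarith) hc
  have hM : 0 < M := by positivity
  have hgap : (γ + α) * p = 1 - α := by
    rw [hα_def, hγ_def]
    field_simp
    ring
  -- main induction
  set S : ℝ → Finset V := fun t => U.filter (fun x => g x ≤ m + t) with hS
  have hS_sub : ∀ t, S t ⊆ U := fun t => Finset.filter_subset _ _
  have key : ∀ k : ℕ, ∀ t : ℝ, 0 ≤ t → (S t).Nonempty → t ≤ M * (1 - ((S t).card : ℝ) ^ (-γ)) →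
      U.card - (S t).card ≤ k →
      ∃ t' : ℝ, 0 ≤ t' ∧ t' ≤ M ∧ U.card < 2 * (S t').card := by
    intro k
    induction k with
    | zero =>
      intro t ht0 hne ht hk
      refine ⟨t, ht0, ?_, ?_⟩
      · have : (0:ℝ) ≤ ((S t).card : ℝ) ^ (-γ) := Real.rpow_nonneg (by positivity) _
        nlinarith
      · have h1 : 0 < (S t).card := Finset.card_pos.mpr hne
        omega
    | succ k ih =>
      intro t ht0 hne ht hk
      by_cases hbig : U.card < 2 * (S t).card
      · refine ⟨t, ht0, ?_, hbig⟩
        have : (0:ℝ) ≤ ((S t).card : ℝ) ^ (-γ) := Real.rpow_nonneg (by positivity) _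
        nlinarith
      · push Not at hbig
        have hapos : 0 < (S t).card := Finset.card_pos.mpr hne
        set a : ℝ := ((S t).card : ℝ) with ha_def
        have ha1 : 1 ≤ a := by rw [ha_def]; exact_mod_cast hapos
        have ha0 : 0 < a := by linarith
        set N : ℝ := (U.card : ℝ) with hN_def
        have haN : 2 * a ≤ N := by rw [ha_def, hN_def]; exact_mod_cast hbig
        set δ := κ * a ^ (-(γ + α)) with hδ_def
        have hδ : 0 < δ := by positivity
        set b : ℝ := ((S (t + δ)).card : ℝ) with hb_def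
        have hsub : S t ⊆ S (t + δ) := by
          intro x hx
          simp only [hS, Finset.mem_filter] at hx ⊢
          exact ⟨hx.1, by linarith [hx.2]⟩
        have hab : a ≤ b := by
          rw [ha_def, hb_def]; exact_mod_cast Finset.card_le_card hsub
        -- mass inequality
        have hsplit := mass_split U w hw g (m + t) δ
        have hfar := far_mass U w hw g hδ hp0 hE
        have h1 := hmax (U \ S t) Finset.sdiff_subset
        have h2 := hmax (S (t + δ)) (hS_sub _)
        have hcard : ((U \ S t).card : ℝ) = N - a := by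
          rw [Finset.card_sdiff_of_subset (hS_sub t), Nat.cast_sub (Finset.card_le_card (hS_sub t))]
        rw [hcard] at h1
        have e1 : S (t + δ) = U.filter (fun x => g x ≤ m + t + δ) := by
          simp only [hS]; congr 1; ext x; rw [add_assoc]
        rw [← e1] at hsplit
        have e2 : S t = U.filter (fun x => g x ≤ m + t) := rfl
        rw [← e2] at hsplit
        have hNa : 0 < N - a := by linarith
        have hphi : (N - a) * phi α (N - a) ≤ (N - a) * phi α N :=
          mul_le_mul_of_nonneg_left (phi_mono hα hNa (by linarith)) hNa.le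
        have hphi' : D * ((N - a) * phi α (N - a)) ≤ D * ((N - a) * phi α N) :=
          mul_le_mul_of_nonneg_left hphi hD.le
        have hmain : D * (a * phi α N) ≤ D * (b * phi α b) + B / δ ^ p := by
          have : D * (N * phi α N) ≤ D * ((N - a) * phi α N) + D * (b * phi α b) + B / δ ^ p := by
            linarith
          nlinarith
        have hmain' : a * phi α N ≤ b * phi α b + B / δ ^ p / D := by
          rw [← mul_le_mul_iff_of_pos_left hD]
          have : D * (b * phi α b + B / δ ^ p / D) = D * (b * phi α b) + B / δ ^ p := by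
            field_simp
          rw [this]
          exact hmain
        have hδp : δ ^ p = 2 * B / (cst α * D) * a ^ (-(1 - α)) := by
          rw [hδ_def, Real.mul_rpow hκ.le (Real.rpow_nonneg ha0.le _), hκ_def,
            ← Real.rpow_mul (by positivity), ← Real.rpow_mul ha0.le]
          congr 1
          · rw [one_div, inv_mul_cancel₀ hp0.ne', Real.rpow_one]
          · rw [← hgap]; ring_nf
        have hX : B / δ ^ p / D ≤ cst α / 2 * a ^ (1 - α) := by
          rw [hδp, Real.rpow_neg ha0.le]
          have : 0 < a ^ (1 - α) := Real.rpow_pos_of_pos ha0 _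
          apply le_of_eq
          field_simp
        have hgrow := growth hα hα1 ha1 haN hab hmain' hX
        have hpot := potential (γ := γ) hα hγ ha1 hgrow
        have hlt : a < b := by
          have : 0 < cst α / 4 * a ^ (1 - α) := by positivity
          linarith
        have hstep : δ ≤ M * (a ^ (-γ) - b ^ (-γ)) := by
          have h3 : M * ((1 - 2 ^ (-γ)) * (cst α / 4) * a ^ (-(γ + α)))
              ≤ M * (a ^ (-γ) - b ^ (-γ)) := mul_le_mul_of_nonneg_left hpot hM.le
          have h4 : M * ((1 - 2 ^ (-γ)) * (cst α / 4) * a ^ (-(γ + α))) = δ := by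
            rw [hM_def, hδ_def]
            have : (1 - (2:ℝ) ^ (-γ)) ≠ 0 := by linarith
            field_simp
          linarith
        apply ih (t + δ) (by linarith) (hne.mono hsub)
        · have : M * (1 - b ^ (-γ)) = M * (1 - a ^ (-γ)) + M * (a ^ (-γ) - b ^ (-γ)) := by ring
          rw [this]
          linarith
        · have hlt' : (S t).card < (S (t + δ)).card := by
            rw [ha_def, hb_def] at hlt; exact_mod_cast hlt
          omega
  have hne0 : (S 0).Nonempty := by
    obtain ⟨x, hx, hxm⟩ := hm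
    exact ⟨x, by simp only [hS, Finset.mem_filter]; exact ⟨hx, by linarith⟩⟩
  have h0 : (0:ℝ) ≤ M * (1 - ((S 0).card : ℝ) ^ (-γ)) := by
    apply mul_nonneg hM.le
    have h1 : (1:ℝ) ≤ ((S 0).card : ℝ) := by exact_mod_cast Finset.card_pos.mpr hne0
    have : ((S 0).card : ℝ) ^ (-γ) ≤ 1 := Real.rpow_le_one_of_one_le_of_nonpos h1 (by linarith)
    linarith
  exact key _ 0 le_rfl hne0 h0 le_rfl

/-- The constant of the dense graph lemma. -/
noncomputable def Kst (p B : ℝ) : ℝ :=
  (2 * B / cst (1 / (2 * (p + 1)))) *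
    (8 / ((1 - 2 ^ (-(1 / (2 * p)))) * cst (1 / (2 * (p + 1))))) ^ p

theorem Kst_pos {p B : ℝ} (hp : 1 ≤ p) (hB : 0 < B) : 0 < Kst p B := by
  unfold Kst
  have hα : (0:ℝ) < 1 / (2 * (p + 1)) := by positivity
  have hγ : (0:ℝ) < 1 / (2 * p) := by positivity
  have hc := cst_pos hα
  have hγ2 : (2:ℝ) ^ (-(1 / (2 * p))) < 1 :=
    Real.rpow_lt_one_of_one_lt_of_neg (by norm_num) (by linarith)
  have hq : 0 < (1 - (2:ℝ) ^ (-(1 / (2 * p)))) * cst (1 / (2 * (p + 1))) :=
    mul_pos (by linarith) hc
  positivity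

/-- **Dense graph lemma.** If a weighted graph is extremal for the density functional with
density constant `D`, and some function of `p`-energy at most `B` has oscillation at
least one, then `D` is bounded. -/
theorem dense_lemma {p B D : ℝ} (hp : 1 ≤ p) (hB : 0 < B)
    (U : Finset V) (w : V × V → ℝ) (hw : ∀ e, 0 ≤ w e)
    (hmax : ∀ W ⊆ U, ∑ e ∈ W ×ˢ W, w e
      ≤ D * ((W.card : ℝ) * phi (1 / (2 * (p + 1))) W.card))
    (hU : D * ((U.card : ℝ) * phi (1 / (2 * (p + 1))) U.card) ≤ ∑ e ∈ U ×ˢ U, w e)
    (g : V → ℝ) (hE : ∑ e ∈ U ×ˢ U, w e * |g e.1 - g e.2| ^ p ≤ B)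
    (u v : V) (hu : u ∈ U) (hv : v ∈ U) (huv : 1 ≤ |g u - g v|) :
    D ≤ Kst p B := by
  classical
  by_contra hcon
  push Not at hcon
  have hK := Kst_pos (p := p) (B := B) hp hB
  have hD : 0 < D := lt_trans hK hcon
  have hp0 : 0 < p := by linarith
  set α := 1 / (2 * (p + 1)) with hα_def
  set γ := 1 / (2 * p) with hγ_def
  have hα : 0 < α := by positivity
  have hγ : 0 < γ := by positivity
  have hc := cst_pos hα
  have hγ2 : (2:ℝ) ^ (-γ) < 1 := Real.rpow_lt_one_of_one_lt_of_neg (by norm_num) (by linarith)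
  have hq : 0 < (1 - (2:ℝ) ^ (-γ)) * cst α := mul_pos (by linarith) hc
  set M := (2 * B / (cst α * D)) ^ (1 / p) * (4 / ((1 - 2 ^ (-γ)) * cst α)) with hM_def
  -- `M < 1/2`
  have hM : M < 1 / 2 := by
    have h1 : 2 * B / (cst α * D) < (1 / (8 / ((1 - 2 ^ (-γ)) * cst α))) ^ p := by
      rw [div_lt_iff₀ (by positivity)]
      have h2 : (2 * B / cst α) * (8 / ((1 - 2 ^ (-γ)) * cst α)) ^ p < D := hcon
      rw [Real.div_rpow (by norm_num) (by positivity), Real.one_rpow]
      set Z := (8 / ((1 - 2 ^ (-γ)) * cst α)) ^ p with hZ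
      have hZpos : 0 < Z := by positivity
      have h3 : 2 * B * Z < cst α * D := by
        have : 2 * B / cst α * Z * cst α < D * cst α := mul_lt_mul_of_pos_right h2 hc
        have e : 2 * B / cst α * Z * cst α = 2 * B * Z := by field_simp
        rw [e] at this
        linarith
      rw [one_div, inv_mul_eq_div, lt_div_iff₀ hZpos]
      exact h3
    have h2 : (2 * B / (cst α * D)) ^ (1 / p) < 1 / (8 / ((1 - 2 ^ (-γ)) * cst α)) := by
      have h3 := Real.rpow_lt_rpow (by positivity) h1 (show 0 < 1 / p by positivity)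
      rw [← Real.rpow_mul (by positivity)] at h3
      rwa [mul_one_div_cancel hp0.ne', Real.rpow_one] at h3
    have h4 : 0 < 4 / ((1 - (2:ℝ) ^ (-γ)) * cst α) := by positivity
    calc M < 1 / (8 / ((1 - 2 ^ (-γ)) * cst α)) * (4 / ((1 - 2 ^ (-γ)) * cst α)) :=
          mul_lt_mul_of_pos_right h2 h4
      _ = 1 / 2 := by
          have hne : (1 - (2:ℝ) ^ (-γ)) ≠ 0 := by linarith
          field_simp
          norm_num
  -- wlog g u ≤ g v
  have main : ∀ (u v : V), u ∈ U → v ∈ U → 1 ≤ g v - g u → False := by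
    intro u v hu hv huv
    obtain ⟨t1, ht10, ht1, hc1⟩ := sublevel_large hp hB hD U w hw hmax hU g hE (g u) ⟨u, hu, le_rfl⟩
    have hE' : ∑ e ∈ U ×ˢ U, w e * |(fun x => - g x) e.1 - (fun x => - g x) e.2| ^ p ≤ B := by
      refine le_trans (le_of_eq ?_) hE
      apply Finset.sum_congr rfl
      intro e _
      simp only
      rw [show -g e.1 - -g e.2 = -(g e.1 - g e.2) by ring, abs_neg]
    obtain ⟨t2, ht20, ht2, hc2⟩ := sublevel_large hp hB hD U w hw hmax hU (fun x => - g x) hE'
      (- g v) ⟨v, hv, le_rfl⟩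
    have hinter : ∃ x, x ∈ U.filter (fun x => g x ≤ g u + t1) ∧
        x ∈ U.filter (fun x => - g x ≤ - g v + t2) := by
      by_contra hno
      push Not at hno
      have hdisj : Disjoint (U.filter (fun x => g x ≤ g u + t1))
          (U.filter (fun x => - g x ≤ - g v + t2)) := by
        rw [Finset.disjoint_left]
        exact hno
      have := Finset.card_union_of_disjoint hdisj
      have hle : (U.filter (fun x => g x ≤ g u + t1) ∪ U.filter (fun x => - g x ≤ - g v + t2)).card
          ≤ U.card := Finset.card_le_card (Finset.union_subset (Finset.filter_subset _ _)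
            (Finset.filter_subset _ _))
      omega
    obtain ⟨x, hx1, hx2⟩ := hinter
    rw [Finset.mem_filter] at hx1 hx2
    have := hx1.2
    have := hx2.2
    linarith
  rcases le_abs.mp huv with h | h
  · exact main v u hv hu h
  · exact main u v hu hv (by linarith)

end Vale.Agent.Lib.H20
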