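import Vale.Agent.Lib.H20.Core

/-! Linear embeddings of finite subsets of `L_p` into `ℓ_p^d` with `d` of order `n log n`. -/

namespace Vale.Agent.Lib.H20

open Finset Real MeasureTheory
open scoped ENNReal

theorem embed_main (p : ℝ≥0∞) [Fact (1 ≤ p)] (hp : p ≠ ∞) {Ω : Type*} [MeasurableSpace Ω]
    (μ : Measure Ω) (X : Finset (Lp ℝ p μ)) (hX : 2 ≤ X.card) {ε : ℝ} (hε0 : 0 < ε) (hε1 : ε ≤ 1)
    (d : ℕ) (hd : 108 * Sst p.toReal * (X.card * Real.log X.card) ≤ ε ^ 2 * d) :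
    ∃ f : Lp ℝ p μ →ₗ[ℝ] PiLp p (fun _ : Fin d => ℝ), ∃ s : ℝ, 0 < s ∧
      ∀ x ∈ X, ∀ y ∈ X, s * ‖x - y‖ ≤ ‖f x - f y‖ ∧ ‖f x - f y‖ ≤ (1 + ε) * (s * ‖x - y‖) := by
  classical
  have hp1 : (1:ℝ≥0∞) ≤ p := Fact.out
  have hp0 : p ≠ 0 := by
    intro h; rw [h] at hp1; simp at hp1
  set q : ℝ := p.toReal with hq
  have hq1 : 1 ≤ q := by
    rw [hq, ← ENNReal.toReal_one]
    exact (ENNReal.toReal_le_toReal ENNReal.one_ne_top hp).mpr hp1
  have hq0 : 0 < q := by linarith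
  -- span of X
  let E : Submodule ℝ (Lp ℝ p μ) := Submodule.span ℝ (X : Set (Lp ℝ p μ))
  have : FiniteDimensional ℝ E := FiniteDimensional.span_finset ℝ X
  let b := Module.finBasis ℝ E
  let φ : E → Ω → ℝ := fun v ω => ∑ l, b.repr v l * ((b l : Lp ℝ p μ) : Ω → ℝ) ω
  have hφmeas : ∀ v, Measurable (φ v) := by
    intro v
    apply Finset.measurable_sum
    intro l _
    exact ((Lp.stronglyMeasurable (b l : Lp ℝ p μ)).measurable).const_mul _
  have hφae : ∀ v : E, φ v =ᵐ[μ] ((v : Lp ℝ p μ) : Ω → ℝ) := by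
    intro v
    have h1 : (v : Lp ℝ p μ) = ∑ l, b.repr v l • (b l : Lp ℝ p μ) := by
      have h0 := congrArg (Subtype.val) (b.sum_repr v)
      rw [← h0]
      push_cast
      rfl
    have h2 : ((∑ l, b.repr v l • (b l : Lp ℝ p μ) : Lp ℝ p μ) : Ω → ℝ) =ᵐ[μ]
        fun ω => ∑ l, ((b.repr v l • (b l : Lp ℝ p μ) : Lp ℝ p μ) : Ω → ℝ) ω := by
      have h5 := Lp.coeFn_finsetSum (p := p) (μ := μ) Finset.univ
        (fun l => (b.repr v l • (b l : Lp ℝ p μ) : Lp ℝ p μ))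
      filter_upwards [h5] with ω hω
      rw [hω, Finset.sum_apply]
    rw [h1]
    refine Filter.EventuallyEq.symm (h2.trans ?_)
    have h3 : ∀ l, ((b.repr v l • (b l : Lp ℝ p μ) : Lp ℝ p μ) : Ω → ℝ) =ᵐ[μ]
        fun ω => b.repr v l * ((b l : Lp ℝ p μ) : Ω → ℝ) ω := by
      intro l
      filter_upwards [Lp.coeFn_smul (b.repr v l) (b l : Lp ℝ p μ)] with ω hω
      rw [hω]
      simp
    have h4 := (Filter.eventually_all.mpr h3)
    filter_upwards [h4] with ω hω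
    simp only [φ]
    exact Finset.sum_congr rfl (fun l _ => hω l)
  have hφsub : ∀ v w ω, φ (v - w) ω = φ v ω - φ w ω := by
    intro v w ω
    simp only [φ, map_sub, Finsupp.sub_apply, sub_mul, Finset.sum_sub_distrib]
  -- the metric space on points of X
  have hmem : ∀ x : X, (x : Lp ℝ p μ) ∈ E := fun x => Submodule.subset_span x.2
  let F : X → Ω → ℝ := fun x => φ ⟨x, hmem x⟩
  have hFsub : ∀ x y : X, (fun ω => F x ω - F y ω) =ᵐ[μ] (((x : Lp ℝ p μ) - y : Lp ℝ p μ) : Ω → ℝ) := by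
    intro x y
    have h1 := hφae (⟨x, hmem x⟩ - ⟨y, hmem y⟩)
    have e : (fun ω => F x ω - F y ω) = φ (⟨x, hmem x⟩ - ⟨y, hmem y⟩) := by
      ext ω
      rw [hφsub]
    rw [e]
    exact h1
  have hae : ∀ x y : X, (fun ω => |F x ω - F y ω| ^ q) =ᵐ[μ]
      fun ω => ‖(((x : Lp ℝ p μ) - y : Lp ℝ p μ) : Ω → ℝ) ω‖ ^ q := by
    intro x y
    filter_upwards [hFsub x y] with ω hω
    rw [← hω, Real.norm_eq_abs]
  have hFint : ∀ x y : X, Integrable (fun ω => |F x ω - F y ω| ^ q) μ := by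
    intro x y
    rw [integrable_congr (hae x y)]
    exact (Lp.memLp _).integrable_norm_rpow hp0 hp
  have hFdist : ∀ x y : X, ∫ ω, |F x ω - F y ω| ^ q ∂μ = dist x y ^ q := by
    intro x y
    rw [integral_congr_ae (hae x y)]
    have h1 : dist x y = ‖((x : Lp ℝ p μ) - y : Lp ℝ p μ)‖ := by
      rw [Subtype.dist_eq, dist_eq_norm]
    have hI : 0 ≤ ∫ ω, ‖(((x : Lp ℝ p μ) - y : Lp ℝ p μ) : Ω → ℝ) ω‖ ^ q ∂μ :=
      integral_nonneg (fun ω => Real.rpow_nonneg (norm_nonneg _) _)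
    rw [h1, Lp.norm_def, MemLp.eLpNorm_eq_integral_rpow_norm hp0 hp (Lp.memLp _),
      ENNReal.toReal_ofReal (by positivity), ← Real.rpow_mul hI, inv_mul_cancel₀ hq0.ne',
      Real.rpow_one]
  have hcard : Fintype.card X = X.card := Fintype.card_coe X
  obtain ⟨ω, c, hc, hω⟩ := core (V := X) hq1 μ F (fun x => hφmeas _) hFint hFdist
    (by rw [hcard]; exact hX) (ε := ε / 3) (by positivity) (by linarith) d (by
      rw [hcard]
      have : (ε / 3) ^ 2 * d = ε ^ 2 * d / 9 := by ring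
      rw [this]
      linarith)
  -- the linear map on E
  let g₀ : E →ₗ[ℝ] (Fin d → ℝ) :=
    { toFun := fun v t => (c t) ^ (1 / q) * φ v (ω t)
      map_add' := by
        intro v w
        ext t
        simp only [φ, map_add, Finsupp.add_apply, add_mul, Finset.sum_add_distrib, Pi.add_apply]
        ring
      map_smul' := by
        intro a v
        ext t
        simp only [φ, map_smul, Finsupp.smul_apply, smul_eq_mul, Pi.smul_apply, RingHom.id_apply]
        rw [Finset.mul_sum, Finset.mul_sum, Finset.mul_sum]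
        apply Finset.sum_congr rfl
        intro l _
        ring }
  let g : E →ₗ[ℝ] PiLp p (fun _ : Fin d => ℝ) :=
    ((WithLp.linearEquiv p ℝ (Fin d → ℝ)).symm.toLinearMap).comp g₀
  obtain ⟨f, hf⟩ := LinearMap.exists_extend g
  have hfx : ∀ x : X, f (x : Lp ℝ p μ) = g ⟨x, hmem x⟩ := by
    intro x
    rw [← hf]
    rfl
  have hnorm : ∀ x y : X, ‖f (x : Lp ℝ p μ) - f y‖ =
      (∑ t, c t * |F x (ω t) - F y (ω t)| ^ q) ^ (1 / q) := by
    intro x y
    rw [hfx, hfx, ← map_sub, PiLp.norm_eq_sum (by rw [← hq]; exact hq0)]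
    congr 1
    apply Finset.sum_congr rfl
    intro t _
    have e : (g (⟨x, hmem x⟩ - ⟨y, hmem y⟩)) t
        = (c t) ^ (1 / q) * (F x (ω t) - F y (ω t)) := by
      change (c t) ^ (1 / q) * φ (⟨x, hmem x⟩ - ⟨y, hmem y⟩) (ω t) = _
      rw [hφsub]
    rw [e, Real.norm_eq_abs, abs_mul, abs_of_nonneg (Real.rpow_nonneg (hc t) _),
      Real.mul_rpow (Real.rpow_nonneg (hc t) _) (abs_nonneg _), ← Real.rpow_mul (hc t), ← hq,
      one_div_mul_cancel hq0.ne', Real.rpow_one]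
  have hδ0 : 0 < 1 - ε / 3 := by linarith
  refine ⟨f, (1 - ε / 3) ^ (1 / q), Real.rpow_pos_of_pos hδ0 _, ?_⟩
  intro x hx y hy
  obtain ⟨h1, h2⟩ := hω ⟨x, hx⟩ ⟨y, hy⟩
  have hdist : dist (⟨x, hx⟩ : X) ⟨y, hy⟩ = ‖x - y‖ := by
    rw [Subtype.dist_eq, dist_eq_norm]
  have hN := hnorm ⟨x, hx⟩ ⟨y, hy⟩
  simp only at hN
  rw [hN]
  rw [hdist] at h1 h2
  have hnn : 0 ≤ ‖x - y‖ := norm_nonneg _
  have hroot : (‖x - y‖ ^ q) ^ (1 / q) = ‖x - y‖ := by
    rw [← Real.rpow_mul hnn, mul_one_div_cancel hq0.ne', Real.rpow_one]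
  constructor
  · calc (1 - ε / 3) ^ (1 / q) * ‖x - y‖ = ((1 - ε / 3) * ‖x - y‖ ^ q) ^ (1 / q) := by
          rw [Real.mul_rpow hδ0.le (Real.rpow_nonneg hnn _), hroot]
      _ ≤ _ := Real.rpow_le_rpow (by positivity) h1 (by positivity)
  · calc (∑ t, c t * |F ⟨x, hx⟩ (ω t) - F ⟨y, hy⟩ (ω t)| ^ q) ^ (1 / q)
        ≤ ((1 + ε / 3) * ‖x - y‖ ^ q) ^ (1 / q) := by
          apply Real.rpow_le_rpow _ h2 (by positivity)
          apply Finset.sum_nonneg
          intro t _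
          exact mul_nonneg (hc t) (Real.rpow_nonneg (abs_nonneg _) _)
      _ = (1 + ε / 3) ^ (1 / q) * ‖x - y‖ := by
          rw [Real.mul_rpow (by linarith) (Real.rpow_nonneg hnn _), hroot]
      _ ≤ ((1 + ε) * (1 - ε / 3) ^ (1 / q)) * ‖x - y‖ := by
          apply mul_le_mul_of_nonneg_right _ hnn
          have h3 : (1 + ε / 3) ≤ (1 + ε) * (1 - ε / 3) := by nlinarith
          have h4 : (1 + ε) ^ (1 / q) ≤ 1 + ε := by
            apply Real.rpow_le_self_of_one_le (by linarith)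
            rw [div_le_one hq0]
            exact hq1
          calc (1 + ε / 3) ^ (1 / q) ≤ ((1 + ε) * (1 - ε / 3)) ^ (1 / q) :=
                Real.rpow_le_rpow (by linarith) h3 (by positivity)
            _ = (1 + ε) ^ (1 / q) * (1 - ε / 3) ^ (1 / q) :=
                Real.mul_rpow (by linarith) hδ0.le
            _ ≤ (1 + ε) * (1 - ε / 3) ^ (1 / q) :=
                mul_le_mul_of_nonneg_right h4 (Real.rpow_nonneg hδ0.le _)
      _ = (1 + ε) * ((1 - ε / 3) ^ (1 / q) * ‖x - y‖) := by ring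

end Vale.Agent.Lib.H20
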