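import Vale.Agent.Lib.H20.Scale

/-! Nets in a finite metric space and the multi-scale bound. -/

namespace Vale.Agent.Lib.H20

open Finset Real MeasureTheory

section nets

variable {V : Type*} [Fintype V] [DecidableEq V] [MetricSpace V]

theorem exists_net (r : ℝ) (hr : 0 < r) :
    ∃ N : Finset V, (∀ x ∈ N, ∀ y ∈ N, x ≠ y → r ≤ dist x y) ∧ ∀ v, ∃ u ∈ N, dist v u < r := by
  classical
  obtain ⟨N, hN, hmax⟩ := Finset.exists_max_image
    ((Finset.univ : Finset V).powerset.filter
      (fun N => ∀ x ∈ N, ∀ y ∈ N, x ≠ y → r ≤ dist x y)) Finset.card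
      ⟨∅, by simp⟩
  rw [Finset.mem_filter] at hN
  refine ⟨N, hN.2, ?_⟩
  intro v
  by_contra hcon
  push Not at hcon
  have hv : v ∉ N := by
    intro hv
    have := hcon v hv
    rw [dist_self] at this
    linarith
  have hins := hmax (insert v N) (by
    rw [Finset.mem_filter]
    refine ⟨by simp, ?_⟩
    intro x hx y hy hxy
    rw [Finset.mem_insert] at hx hy
    rcases hx with rfl | hx
    · rcases hy with rfl | hy
      · exact absurd rfl hxy
      · exact hcon y hy
    · rcases hy with rfl | hy
      · rw [dist_comm]; exact hcon x hx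
      · exact hN.2 x hx y hy hxy)
  rw [Finset.card_insert_of_notMem hv] at hins
  omega

/-- a chosen net -/
noncomputable def net (V : Type*) [Fintype V] [DecidableEq V] [MetricSpace V] (r : ℝ) : Finset V :=
  if hr : 0 < r then (exists_net (V := V) r hr).choose else ∅

theorem net_sep {r : ℝ} (hr : 0 < r) {x y : V} (hx : x ∈ net V r) (hy : y ∈ net V r)
    (hxy : x ≠ y) : r ≤ dist x y := by
  unfold net at hx hy
  rw [dif_pos hr] at hx hy
  exact (exists_net (V := V) r hr).choose_spec.1 x hx y hy hxy

theorem net_cover {r : ℝ} (hr : 0 < r) (v : V) : ∃ u ∈ net V r, dist v u < r := by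
  unfold net
  rw [dif_pos hr]
  exact (exists_net (V := V) r hr).choose_spec.2 v

/-- points of the net at scale `r / 4` having another net point within `5 r / 2` -/
noncomputable def act (V : Type*) [Fintype V] [DecidableEq V] [MetricSpace V] (r : ℝ) :
    Finset V :=
  @Finset.filter V (fun u => ∃ v ∈ net V (r / 4), v ≠ u ∧ dist u v ≤ 5 / 2 * r)
    (Classical.decPred _) (net V (r / 4))

theorem mem_act {r : ℝ} {u : V} :
    u ∈ act V r ↔ u ∈ net V (r / 4) ∧ ∃ v ∈ net V (r / 4), v ≠ u ∧ dist u v ≤ 5 / 2 * r := by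
  exact @Finset.mem_filter V _ (Classical.decPred _) _ _

theorem card_act_le {r : ℝ} (hr : 0 < r) :
    ((act V r).card : ℝ) ≤ 2 * ((net V (r / 4)).card - (net V (32 * r / 4)).card) := by
  classical
  set N := net V (r / 4) with hN
  set M := net V (32 * r / 4) with hM
  have hr4 : 0 < r / 4 := by linarith
  have hr8 : 0 < 32 * r / 4 := by linarith
  choose pr hprN hprd using fun z : V => net_cover (V := V) hr4 z
  have hMsep : ∀ z ∈ M, ∀ z' ∈ M, dist z z' < 8 * r → z = z' := by
    intro z hz z' hz' hd
    by_contra hne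
    have := net_sep hr8 hz hz' hne
    linarith
  -- image
  set I := M.image pr with hI
  have hIN : I ⊆ N := by
    intro u hu
    rw [hI, Finset.mem_image] at hu
    obtain ⟨z, _, rfl⟩ := hu
    exact hprN z
  have hIcard : I.card = M.card := by
    apply Finset.card_image_of_injOn
    intro z hz z' hz' he
    apply hMsep z hz z' hz'
    have h1 := hprd z
    have h2 := hprd z'
    have he' : pr z = pr z' := he
    rw [he'] at h1
    calc dist z z' ≤ dist z (pr z') + dist (pr z') z' := dist_triangle _ _ _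
      _ < 8 * r := by rw [dist_comm (pr z') z']; linarith
  have hNI : (N \ I).card = N.card - I.card := Finset.card_sdiff_of_subset hIN
  have hIleN : I.card ≤ N.card := Finset.card_le_card hIN
  -- partner map
  have hsub : act V r ⊆ N := by
    intro u hu
    exact (mem_act.mp hu).1
  have hpart : ∀ u, ∃ v, u ∈ act V r → (v ∈ N ∧ v ≠ u ∧ dist u v ≤ 5 / 2 * r) := by
    intro u
    by_cases hu : u ∈ act V r
    · have hu' := hu
      obtain ⟨v, hv1, hv2, hv3⟩ := (mem_act.mp hu').2
      exact ⟨v, fun _ => ⟨hv1, hv2, hv3⟩⟩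
    · exact ⟨u, fun h => absurd h hu⟩
  choose w hw using hpart
  have hcard2 : ((act V r).filter (· ∈ I)).card ≤ (N \ I).card := by
    apply Finset.card_le_card_of_injOn w
    · intro u hu
      have hu' := Finset.mem_filter.mp hu
      obtain ⟨hw1, hw2, hw3⟩ := hw u hu'.1
      simp only [Finset.coe_sdiff, Set.mem_sdiff, Finset.mem_coe]
      refine ⟨hw1, ?_⟩
      intro hwI
      obtain ⟨z, hz, hzu⟩ := Finset.mem_image.mp hu'.2
      obtain ⟨z', hz', hzw⟩ := Finset.mem_image.mp hwI
      have hzz : z = z' := by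
        apply hMsep z hz z' hz'
        have h1 := hprd z
        have h2 := hprd z'
        rw [hzu] at h1
        rw [hzw] at h2
        calc dist z z' ≤ dist z u + dist u (w u) + dist (w u) z' := dist_triangle4 _ _ _ _
          _ < 8 * r := by rw [dist_comm (w u) z']; linarith
      subst hzz
      exact hw2 (hzw.symm.trans hzu)
    · intro u hu u' hu' he
      have hu2 := Finset.mem_filter.mp hu
      have hu2' := Finset.mem_filter.mp hu'
      obtain ⟨hw1, hw2, hw3⟩ := hw u hu2.1
      obtain ⟨hw1', hw2', hw3'⟩ := hw u' hu2'.1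
      obtain ⟨z, hz, hzu⟩ := Finset.mem_image.mp hu2.2
      obtain ⟨z', hz', hzu'⟩ := Finset.mem_image.mp hu2'.2
      have he' : w u = w u' := he
      have hzz : z = z' := by
        apply hMsep z hz z' hz'
        have h1 := hprd z
        have h2 := hprd z'
        rw [hzu] at h1
        rw [hzu'] at h2
        rw [← he'] at hw3'
        calc dist z z' ≤ dist z u + dist u (w u) + dist (w u) z' := dist_triangle4 _ _ _ _
          _ ≤ dist z u + dist u (w u) + (dist (w u) u' + dist u' z') := by
              gcongr; exact dist_triangle _ _ _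
          _ < 8 * r := by
              rw [dist_comm (w u) u', dist_comm u' z']
              linarith
      subst hzz
      exact hzu.symm.trans hzu'
  have hcard3 : ((act V r).filter (· ∉ I)).card ≤ (N \ I).card := by
    apply Finset.card_le_card
    intro u hu
    have hu' := Finset.mem_filter.mp hu
    rw [Finset.mem_sdiff]
    exact ⟨hsub hu'.1, hu'.2⟩
  have hsum : (act V r).card ≤ 2 * (N.card - M.card) := by
    rw [← Finset.card_filter_add_card_filter_not (s := act V r) (p := (· ∈ I))]
    rw [← hIcard, ← hNI]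
    omega
  have hMN : M.card ≤ N.card := hIcard ▸ hIleN
  have : ((act V r).card : ℝ) ≤ ((2 * (N.card - M.card) : ℕ) : ℝ) := by exact_mod_cast hsum
  rw [Nat.cast_mul, Nat.cast_sub hMN] at this
  exact_mod_cast this

theorem sum_card_act_le {r₀ : ℝ} (hr : 0 < r₀) (L : ℕ) :
    ∑ k ∈ range L, ((act V (r₀ * 2 ^ k)).card : ℝ) ≤ 10 * Fintype.card V := by
  let f : ℕ → ℝ := fun k => ((net V (r₀ * 2 ^ k / 4)).card : ℝ)
  have hf0 : ∀ k, 0 ≤ f k := fun k => Nat.cast_nonneg _
  have hf1 : ∀ k, f k ≤ Fintype.card V := fun k => by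
    simp only [f]
    exact_mod_cast Finset.card_le_univ _
  have h1 : ∀ k, ((act V (r₀ * 2 ^ k)).card : ℝ) ≤ 2 * (f k - f (k + 5)) := by
    intro k
    have := card_act_le (V := V) (r := r₀ * 2 ^ k) (by positivity)
    have e : 32 * (r₀ * 2 ^ k) / 4 = r₀ * 2 ^ (k + 5) / 4 := by ring
    rw [e] at this
    exact this
  let g : ℕ → ℝ := fun k => f k + f (k + 1) + f (k + 2) + f (k + 3) + f (k + 4)
  have h2 : ∀ k, f k - f (k + 5) = g k - g (k + 1) := by
    intro k
    simp only [g]
    ring_nf
  calc ∑ k ∈ range L, ((act V (r₀ * 2 ^ k)).card : ℝ)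
      ≤ ∑ k ∈ range L, 2 * (f k - f (k + 5)) := Finset.sum_le_sum (fun k _ => h1 k)
    _ = 2 * ∑ k ∈ range L, (g k - g (k + 1)) := by
        rw [Finset.mul_sum]
        apply Finset.sum_congr rfl
        intro k _
        rw [h2]
    _ = 2 * (g 0 - g L) := by rw [Finset.sum_range_sub']
    _ ≤ 10 * Fintype.card V := by
        have h3 : 0 ≤ g L := by
          simp only [g]
          have := hf0 L; have := hf0 (L+1); have := hf0 (L+2); have := hf0 (L+3)
          have := hf0 (L+4)
          linarith
        have h4 : g 0 ≤ 5 * Fintype.card V := by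
          simp only [g]
          have := hf1 0; have := hf1 (0+1); have := hf1 (0+2); have := hf1 (0+3)
          have := hf1 (0+4)
          linarith
        linarith

end nets

variable {V : Type*} [Fintype V] [DecidableEq V] [MetricSpace V] {Ω : Type*} [MeasurableSpace Ω]

/-- **Multi-scale bound.** -/
theorem multi_scale {p : ℝ} (hp : 1 ≤ p) (ν : Measure Ω) [IsFiniteMeasure ν]
    (G : V → Ω → ℝ) (hG : ∀ i, Measurable (G i))
    (hlip : ∀ᵐ ω ∂ν, ∀ i j, |G i ω - G j ω| ≤ dist i j)
    (hbd : ∀ i j, ∫ ω, |G i ω - G j ω| ^ p ∂ν ≤ dist i j ^ p)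
    (htight : ∀ᵐ ω ∂ν, ∃ i j, i ≠ j ∧ dist i j ≤ |G i ω - G j ω|) :
    ν.real Set.univ ≤ 20 * Kst p (5 ^ p) * Fintype.card V := by
  classical
  have hp0 : 0 < p := by linarith
  have hB : (0:ℝ) < 5 ^ p := by positivity
  have hK := Kst_pos (p := p) hp hB
  -- scales
  by_cases hpair : ∃ i j : V, i ≠ j
  swap
  · have : ∀ᵐ ω ∂ν, False := by
      filter_upwards [htight] with ω hω
      obtain ⟨i, j, hij, _⟩ := hω
      exact hpair ⟨i, j, hij⟩
    have h0 : ν = 0 := by
      rw [← Measure.measure_univ_eq_zero]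
      have := ae_iff.mp this
      simpa using this
    rw [h0]
    have : (0:ℝ) ≤ 20 * Kst p (5 ^ p) * Fintype.card V := by positivity
    simpa using this
  obtain ⟨i0, j0, hij0⟩ := hpair
  let T : Finset (V × V) := Finset.univ.filter (fun e => e.1 ≠ e.2)
  have hTne : T.Nonempty := ⟨(i0, j0), by simp [T, hij0]⟩
  obtain ⟨emin, hemin, hmin⟩ := Finset.exists_min_image T (fun e => dist e.1 e.2) hTne
  obtain ⟨emax, hemax, hmax⟩ := Finset.exists_max_image T (fun e => dist e.1 e.2) hTne
  set r₀ := dist emin.1 emin.2 with hr₀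
  have hr₀pos : 0 < r₀ := dist_pos.mpr (by simpa [T] using hemin)
  obtain ⟨L, hL⟩ := pow_unbounded_of_one_lt (dist emax.1 emax.2 / r₀) (one_lt_two)
  have hdistL : ∀ i j : V, i ≠ j → dist i j < r₀ * 2 ^ L := by
    intro i j hij
    have h1 := hmax (i, j) (by simp [T, hij])
    rw [div_lt_iff₀ hr₀pos] at hL
    simp only at h1
    linarith
  have hscale : ∀ i j : V, i ≠ j → ∃ k ∈ range L, r₀ * 2 ^ k ≤ dist i j ∧
      dist i j < r₀ * 2 ^ (k + 1) := by
    intro i j hij
    have h1 : r₀ ≤ dist i j := hmin (i, j) (by simp [T, hij])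
    -- find the least m with dist < r₀ 2^m
    have hex : ∃ m : ℕ, dist i j < r₀ * 2 ^ m := ⟨L, hdistL i j hij⟩
    set m := Nat.find hex with hm
    have hm1 : dist i j < r₀ * 2 ^ m := Nat.find_spec hex
    have hm0 : m ≠ 0 := by
      intro h
      rw [h] at hm1
      simp at hm1
      linarith
    obtain ⟨k, hk⟩ := Nat.exists_eq_succ_of_ne_zero hm0
    refine ⟨k, ?_, ?_, ?_⟩
    · rw [Finset.mem_range]
      have : m ≤ L := Nat.find_min' hex (hdistL i j hij)
      omega
    · by_contra hlt
      push Not at hlt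
      exact Nat.find_min hex (by omega : k < m) hlt
    · rw [hk] at hm1
      exact hm1
  -- events
  let A : ℕ → Set Ω := fun k => {ω | ∃ i j : V, r₀ * 2 ^ k ≤ dist i j ∧
    dist i j < r₀ * 2 ^ (k + 1) ∧ dist i j ≤ |G i ω - G j ω|}
  have hAmeas : ∀ k, MeasurableSet (A k) := by
    intro k
    have : A k = ⋃ i : V, ⋃ j : V, {ω | r₀ * 2 ^ k ≤ dist i j ∧
      dist i j < r₀ * 2 ^ (k + 1) ∧ dist i j ≤ |G i ω - G j ω|} := by
      ext ω
      simp [A]
    rw [this]
    apply MeasurableSet.iUnion
    intro i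
    apply MeasurableSet.iUnion
    intro j
    by_cases h1 : r₀ * 2 ^ k ≤ dist i j
    · by_cases h2 : dist i j < r₀ * 2 ^ (k + 1)
      · simp only [h1, h2, true_and]
        exact measurableSet_le measurable_const ((hG i).sub (hG j)).abs
      · simp [h2]
    · simp [h1]
  have hcover : ν.real Set.univ ≤ ∑ k ∈ range L, ν.real (A k) := by
    have h1 : ν.real Set.univ = ν.real (⋃ k ∈ range L, A k) := by
      apply measureReal_congr
      filter_upwards [htight] with ω hω
      apply propext
      constructor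
      · intro _
        obtain ⟨i, j, hij, hd⟩ := hω
        obtain ⟨k, hk, hk1, hk2⟩ := hscale i j hij
        change ω ∈ ⋃ k ∈ range L, A k
        simp only [Set.mem_iUnion]
        exact ⟨k, hk, i, j, hk1, hk2, hd⟩
      · intro _
        trivial
    rw [h1]
    exact measureReal_biUnion_finset_le _ _
  -- bound for one scale
  have hone : ∀ k, ν.real (A k) ≤ 2 * Kst p (5 ^ p) * (act V (r₀ * 2 ^ k)).card := by
    intro k
    set r := r₀ * 2 ^ k with hr_def
    have hr : 0 < r := by positivity
    have hr4 : 0 < r / 4 := by linarith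
    set N := net V (r / 4) with hN
    set N' := act V r with hN'
    let E : Finset (V × V) := (N' ×ˢ N').filter (fun e => dist e.1 e.2 ≤ 5 / 2 * r)
    have hE : E ⊆ N' ×ˢ N' := Finset.filter_subset _ _
    have key := single_scale (p := p) (B := 5 ^ p) hp hB (ν.restrict (A k)) N' E hE
      (fun i ω => 2 / r * G i ω) (fun i => (hG i).const_mul _) ?_ ?_ ?_
    · simpa using key
    · -- integrability
      intro e _
      apply Integrable.restrict
      apply Integrable.of_bound (C := (2 / r * dist e.1 e.2) ^ p)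
      · have hm : Measurable (fun ω => |2 / r * G e.1 ω - 2 / r * G e.2 ω| ^ p) :=
          ((((hG e.1).const_mul _).sub ((hG e.2).const_mul _)).abs).pow_const _
        exact hm.aestronglyMeasurable
      · filter_upwards [hlip] with ω hω
        rw [Real.norm_eq_abs, abs_of_nonneg (Real.rpow_nonneg (abs_nonneg _) _)]
        apply Real.rpow_le_rpow (abs_nonneg _) _ hp0.le
        rw [← mul_sub, abs_mul, abs_of_pos (by positivity : (0:ℝ) < 2 / r)]
        exact mul_le_mul_of_nonneg_left (hω _ _) (by positivity)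
    · -- moment bound
      intro e he
      have hed : dist e.1 e.2 ≤ 5 / 2 * r := (Finset.mem_filter.mp he).2
      have hint : Integrable (fun ω => |G e.1 ω - G e.2 ω| ^ p) ν := by
        apply Integrable.of_bound (C := (dist e.1 e.2) ^ p)
        · have hm : Measurable (fun ω => |G e.1 ω - G e.2 ω| ^ p) :=
            (((hG e.1).sub (hG e.2)).abs).pow_const _
          exact hm.aestronglyMeasurable
        · filter_upwards [hlip] with ω hω
          rw [Real.norm_eq_abs, abs_of_nonneg (Real.rpow_nonneg (abs_nonneg _) _)]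
          exact Real.rpow_le_rpow (abs_nonneg _) (hω _ _) hp0.le
      have e1 : ∀ ω, |2 / r * G e.1 ω - 2 / r * G e.2 ω| ^ p
          = (2 / r) ^ p * |G e.1 ω - G e.2 ω| ^ p := by
        intro ω
        rw [← mul_sub, abs_mul, abs_of_pos (by positivity : (0:ℝ) < 2 / r),
          Real.mul_rpow (by positivity) (abs_nonneg _)]
      simp only [e1]
      rw [integral_const_mul]
      have h1 : ∫ ω in A k, |G e.1 ω - G e.2 ω| ^ p ∂ν ≤ ∫ ω, |G e.1 ω - G e.2 ω| ^ p ∂ν := by
        apply setIntegral_le_integral hint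
        filter_upwards with ω
        exact Real.rpow_nonneg (abs_nonneg _) _
      calc (2 / r) ^ p * ∫ ω in A k, |G e.1 ω - G e.2 ω| ^ p ∂ν
          ≤ (2 / r) ^ p * (dist e.1 e.2) ^ p :=
            mul_le_mul_of_nonneg_left (h1.trans (hbd _ _)) (by positivity)
        _ = (2 / r * dist e.1 e.2) ^ p := by
            rw [Real.mul_rpow (by positivity) dist_nonneg]
        _ ≤ 5 ^ p := by
            apply Real.rpow_le_rpow (by positivity) _ hp0.le
            calc 2 / r * dist e.1 e.2 ≤ 2 / r * (5 / 2 * r) := by gcongr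
              _ = 5 := by field_simp
    · -- steepness
      rw [ae_restrict_iff' (hAmeas k)]
      filter_upwards [hlip] with ω hω hωA
      obtain ⟨i, j, h1, h2, h3⟩ := hωA
      obtain ⟨i', hi'N, hi'd⟩ := net_cover (V := V) hr4 i
      obtain ⟨j', hj'N, hj'd⟩ := net_cover (V := V) hr4 j
      have hrr : r₀ * 2 ^ (k + 1) = 2 * r := by rw [hr_def]; ring
      rw [hrr] at h2
      have hg1 := hω i i'
      have hg2 := hω j j'
      have hjump : r / 2 ≤ |G i' ω - G j' ω| := by
        have : |G i ω - G j ω| ≤ |G i ω - G i' ω| + |G i' ω - G j' ω| + |G j ω - G j' ω| := by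
          have e : G i ω - G j ω = (G i ω - G i' ω) + (G i' ω - G j' ω) + -(G j ω - G j' ω) := by
            ring
          rw [e]
          refine (abs_add_three _ _ _).trans ?_
          rw [abs_neg]
        linarith
      have hdd : dist i' j' ≤ 5 / 2 * r := by
        calc dist i' j' ≤ dist i' i + dist i j + dist j j' := dist_triangle4 _ _ _ _
          _ ≤ 5 / 2 * r := by rw [dist_comm i' i]; linarith
      have hne : i' ≠ j' := by
        rintro rfl
        simp at hjump
        linarith
      have hi'act : i' ∈ N' := by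
        rw [hN']
        exact mem_act.mpr ⟨hi'N, j', hj'N, hne.symm, hdd⟩
      have hj'act : j' ∈ N' := by
        rw [hN']
        exact mem_act.mpr ⟨hj'N, i', hi'N, hne, by rw [dist_comm]; exact hdd⟩
      refine ⟨(i', j'), ?_, ?_⟩
      · simp only [E, Finset.mem_filter, Finset.mem_product]
        exact ⟨⟨hi'act, hj'act⟩, hdd⟩
      · simp only
        rw [← mul_sub, abs_mul, abs_of_pos (by positivity : (0:ℝ) < 2 / r)]
        calc (1:ℝ) = 2 / r * (r / 2) := by field_simp
          _ ≤ _ := by gcongr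
  calc ν.real Set.univ ≤ ∑ k ∈ range L, ν.real (A k) := hcover
    _ ≤ ∑ k ∈ range L, 2 * Kst p (5 ^ p) * (act V (r₀ * 2 ^ k)).card :=
        Finset.sum_le_sum (fun k _ => hone k)
    _ = 2 * Kst p (5 ^ p) * ∑ k ∈ range L, ((act V (r₀ * 2 ^ k)).card : ℝ) := by
        rw [Finset.mul_sum]
    _ ≤ 2 * Kst p (5 ^ p) * (10 * Fintype.card V) :=
        mul_le_mul_of_nonneg_left (sum_card_act_le hr₀pos L) (by positivity)
    _ = 20 * Kst p (5 ^ p) * Fintype.card V := by ring

end Vale.Agent.Lib.H20
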