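import Mathlib

/-! Elementary real inequalities used in the growth argument. -/

namespace Vale.Agent.Lib.H20

open Real

/-- the slowly increasing factor -/
noncomputable def phi (α x : ℝ) : ℝ := 2 - x ^ (-α)

theorem phi_mono {α x y : ℝ} (hα : 0 < α) (hx : 0 < x) (hxy : x ≤ y) : phi α x ≤ phi α y := by
  unfold phi
  have : y ^ (-α) ≤ x ^ (-α) := Real.rpow_le_rpow_of_nonpos hx hxy (by linarith)
  linarith

theorem phi_ge_one {α x : ℝ} (hα : 0 < α) (hx : 1 ≤ x) : 1 ≤ phi α x := by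
  unfold phi
  have : x ^ (-α) ≤ 1 := Real.rpow_le_one_of_one_le_of_nonpos hx (by linarith)
  linarith

theorem phi_le_two {α x : ℝ} (hx : 0 ≤ x) : phi α x ≤ 2 := by
  unfold phi
  have : 0 ≤ x ^ (-α) := Real.rpow_nonneg hx _
  linarith

/-- The constant `(3/2)^(-α) - 2^(-α)`. -/
noncomputable def cst (α : ℝ) : ℝ := (3/2 : ℝ) ^ (-α) - 2 ^ (-α)

theorem cst_pos {α : ℝ} (hα : 0 < α) : 0 < cst α := by
  unfold cst
  have : (2:ℝ) ^ (-α) < (3/2 : ℝ) ^ (-α) :=
    Real.rpow_lt_rpow_of_neg (by norm_num) (by norm_num) (by linarith)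
  linarith

theorem cst_le_one {α : ℝ} (hα : 0 < α) : cst α ≤ 1 := by
  unfold cst
  have h1 : (3/2 : ℝ) ^ (-α) ≤ 1 := Real.rpow_le_one_of_one_le_of_nonpos (by norm_num) (by linarith)
  have h2 : (0:ℝ) ≤ 2 ^ (-α) := Real.rpow_nonneg (by norm_num) _
  linarith

/-- One growth step. -/
theorem growth {α a b N X : ℝ} (hα : 0 < α) (hα1 : α < 1) (ha : 1 ≤ a) (haN : 2 * a ≤ N)
    (hab : a ≤ b)
    (h : a * phi α N ≤ b * phi α b + X) (hX : X ≤ cst α / 2 * a ^ (1 - α)) :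
    a + cst α / 4 * a ^ (1 - α) ≤ b := by
  have ha0 : 0 < a := by linarith
  have hc := cst_pos hα
  have hc1 := cst_le_one hα
  have hpow : a ^ (1 - α) = a * a ^ (-α) := by
    rw [sub_eq_add_neg, Real.rpow_add ha0, Real.rpow_one]
  have hpow_le : a ^ (-α) ≤ 1 := Real.rpow_le_one_of_one_le_of_nonpos ha (by linarith)
  have hpow_pos : 0 < a ^ (-α) := Real.rpow_pos_of_pos ha0 _
  by_cases hb : b ≤ 3 / 2 * a
  · -- main case
    have h1 : N ^ (-α) ≤ 2 ^ (-α) * a ^ (-α) := by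
      rw [← Real.mul_rpow (by norm_num) ha0.le]
      exact Real.rpow_le_rpow_of_nonpos (by positivity) haN (by linarith)
    have h2 : (3/2 : ℝ) ^ (-α) * a ^ (-α) ≤ b ^ (-α) := by
      rw [← Real.mul_rpow (by norm_num) ha0.le]
      exact Real.rpow_le_rpow_of_nonpos (by linarith) hb (by linarith)
    have h3 : b * phi α b ≤ b * (2 - (3/2 : ℝ) ^ (-α) * a ^ (-α)) := by
      unfold phi
      apply mul_le_mul_of_nonneg_left _ (by linarith)
      linarith
    have h4 : a * (2 - 2 ^ (-α) * a ^ (-α)) ≤ a * phi α N := by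
      unfold phi
      apply mul_le_mul_of_nonneg_left _ (by linarith)
      linarith
    set u := a ^ (-α) with hu
    set q := (3/2 : ℝ) ^ (-α) with hq
    have hcq : cst α = q - 2 ^ (-α) := rfl
    set r := (2:ℝ) ^ (-α) with hr
    rw [hpow] at hX ⊢
    have hq0 : 0 ≤ q * u := by positivity
    have hq2 : q * u ≤ 1 := by
      have : q ≤ 1 := Real.rpow_le_one_of_one_le_of_nonpos (by norm_num) (by linarith)
      nlinarith [Real.rpow_nonneg (show (0:ℝ) ≤ 3/2 by norm_num) (-α)]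
    -- b (2 - q u) ≥ a (2 - r u) - X ≥ a (2 - q u) + (q - r) a u - (c/2) a u
    have h5 : (cst α / 2) * (a * u) ≤ (b - a) * (2 - q * u) := by
      rw [hcq] at hX ⊢
      nlinarith
    have h6 : (b - a) * (2 - q * u) ≤ (b - a) * 2 := by
      apply mul_le_mul_of_nonneg_left _ (by linarith)
      linarith
    nlinarith
  · push Not at hb
    have : cst α / 4 * a ^ (1 - α) ≤ 1 / 4 * a := by
      rw [hpow]
      have : a * a ^ (-α) ≤ a := by nlinarith
      have h0 : 0 ≤ a * a ^ (-α) := by positivity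
      nlinarith
    linarith

/-- convexity estimate -/
theorem one_add_rpow_neg_le {γ x : ℝ} (hγ : 0 < γ) (hx : 0 ≤ x) (hx1 : x ≤ 1) :
    (1 + x) ^ (-γ) ≤ 1 - (1 - 2 ^ (-γ)) * x := by
  have hconv := convexOn_rpow_left (b := 2) (by norm_num)
  have h1 := hconv.2 (Set.mem_univ (0:ℝ)) (Set.mem_univ (1:ℝ))
    (show 0 ≤ 1 - x by linarith) hx (by ring)
  have h2 := hconv.2 (Set.mem_univ (0:ℝ)) (Set.mem_univ (-γ))
    (show 0 ≤ 1 - x by linarith) hx (by ring)
  simp only [smul_eq_mul, Real.rpow_zero, mul_zero, zero_add, mul_one, Real.rpow_one] at h1 h2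
  have h3 : (1 + x) ^ (-γ) ≤ ((2:ℝ) ^ x) ^ (-γ) :=
    Real.rpow_le_rpow_of_nonpos (Real.rpow_pos_of_pos (by norm_num) _) (by linarith) (by linarith)
  rw [← Real.rpow_mul (by norm_num)] at h3
  linarith

theorem potential {α γ a b : ℝ} (hα : 0 < α) (hγ : 0 < γ) (ha : 1 ≤ a)
    (hb : a + cst α / 4 * a ^ (1 - α) ≤ b) :
    (1 - 2 ^ (-γ)) * (cst α / 4) * a ^ (-(γ + α)) ≤ a ^ (-γ) - b ^ (-γ) := by
  have ha0 : 0 < a := by linarith
  have hc := cst_pos hα
  have hc1 := cst_le_one hα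
  have hpow : a ^ (1 - α) = a * a ^ (-α) := by
    rw [sub_eq_add_neg, Real.rpow_add ha0, Real.rpow_one]
  have hpow_le : a ^ (-α) ≤ 1 := Real.rpow_le_one_of_one_le_of_nonpos ha (by linarith)
  have hpow_pos : 0 < a ^ (-α) := Real.rpow_pos_of_pos ha0 _
  set x := cst α / 4 * a ^ (-α) with hx
  have hx0 : 0 ≤ x := by positivity
  have hx1 : x ≤ 1 := by nlinarith
  have e1 : a + cst α / 4 * a ^ (1 - α) = a * (1 + x) := by rw [hpow, hx]; ring
  rw [e1] at hb
  have h1 : b ^ (-γ) ≤ (a * (1 + x)) ^ (-γ) :=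
    Real.rpow_le_rpow_of_nonpos (by positivity) hb (by linarith)
  rw [Real.mul_rpow ha0.le (by linarith)] at h1
  have h2 := one_add_rpow_neg_le hγ hx0 hx1
  have h3 : a ^ (-γ) * (1 + x) ^ (-γ) ≤ a ^ (-γ) * (1 - (1 - 2 ^ (-γ)) * x) :=
    mul_le_mul_of_nonneg_left h2 (Real.rpow_nonneg ha0.le _)
  have e2 : a ^ (-(γ + α)) = a ^ (-γ) * a ^ (-α) := by
    rw [neg_add, Real.rpow_add ha0]
  rw [e2]
  have e3 : a ^ (-γ) * (1 - (1 - 2 ^ (-γ)) * x)
      = a ^ (-γ) - (1 - 2 ^ (-γ)) * (cst α / 4) * (a ^ (-γ) * a ^ (-α)) := by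
    rw [hx]; ring
  linarith

end Vale.Agent.Lib.H20
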