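import Vale.Agent.Lib.H20.Dense

/-! The single-scale bound: a measure on functions which are steep somewhere, with bounded
`p`-th moments of all increments, has mass at most linear in the number of points. -/

namespace Vale.Agent.Lib.H20

open Finset Real MeasureTheory

variable {V : Type*} [DecidableEq V] {Ω : Type*} [MeasurableSpace Ω]

theorem single_scale {p B : ℝ} (hp : 1 ≤ p) (hB : 0 < B) (ν : Measure Ω) [IsFiniteMeasure ν]
    (V' : Finset V) (E : Finset (V × V)) (hEV : E ⊆ V' ×ˢ V')
    (G : V → Ω → ℝ) (hG : ∀ i, Measurable (G i))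
    (hint : ∀ e ∈ E, Integrable (fun ω => |G e.1 ω - G e.2 ω| ^ p) ν)
    (hbd : ∀ e ∈ E, ∫ ω, |G e.1 ω - G e.2 ω| ^ p ∂ν ≤ B)
    (htight : ∀ᵐ ω ∂ν, ∃ e ∈ E, 1 ≤ |G e.1 ω - G e.2 ω|) :
    ν.real Set.univ ≤ 2 * Kst p B * V'.card := by
  classical
  have hK := Kst_pos (p := p) (B := B) hp hB
  -- trivial case
  by_cases hV' : V'.Nonempty
  swap
  · rw [Finset.not_nonempty_iff_eq_empty] at hV'
    have hE0 : E = ∅ := by
      rw [hV'] at hEV
      simpa using hEV
    have : ∀ᵐ ω ∂ν, False := by
      filter_upwards [htight] with ω hω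
      rw [hE0] at hω
      simp at hω
    have h0 : ν = 0 := by
      rw [← Measure.measure_univ_eq_zero]
      have := ae_iff.mp this
      simpa using this
    rw [h0, hV']
    simp
  -- tight indicator and multiplicity
  let A : V × V → Set Ω := fun e => {ω | 1 ≤ |G e.1 ω - G e.2 ω|}
  have hA : ∀ e, MeasurableSet (A e) := by
    intro e
    exact measurableSet_le measurable_const ((hG e.1).sub (hG e.2)).abs
  let ind : V × V → Ω → ℝ := fun e => (A e).indicator (fun _ => (1:ℝ))
  have hind : ∀ e, Measurable (ind e) := fun e => measurable_const.indicator (hA e)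
  have hind0 : ∀ e ω, 0 ≤ ind e ω := fun e ω => Set.indicator_nonneg (fun _ _ => zero_le_one) ω
  have hind1 : ∀ e ω, ind e ω ≤ 1 := fun e ω => by
    simp only [ind, Set.indicator_apply]
    split_ifs <;> norm_num
  let k : Ω → ℝ := fun ω => ∑ e ∈ E, ind e ω
  have hk : Measurable k := Finset.measurable_sum _ (fun e _ => hind e)
  have hk0 : ∀ ω, 0 ≤ k ω := fun ω => Finset.sum_nonneg (fun e _ => hind0 e ω)
  let c : V × V → Ω → ℝ := fun e ω => ind e ω / k ω
  have hc : ∀ e, Measurable (c e) := fun e => (hind e).div hk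
  have hc0 : ∀ e ω, 0 ≤ c e ω := fun e ω => div_nonneg (hind0 e ω) (hk0 ω)
  have hcle : ∀ T ⊆ E, ∀ ω, ∑ e ∈ T, c e ω ≤ 1 := by
    intro T hT ω
    simp only [c]
    rw [← Finset.sum_div]
    apply div_le_one_of_le₀ _ (hk0 ω)
    exact Finset.sum_le_sum_of_subset_of_nonneg hT (fun e _ _ => hind0 e ω)
  have hc1 : ∀ e ∈ E, ∀ ω, c e ω ≤ 1 := by
    intro e he ω
    have := hcle {e} (by simpa using he) ω
    simpa using this
  have hcint : ∀ e ∈ E, Integrable (c e) ν := by
    intro e he
    apply Integrable.of_bound (hc e).aestronglyMeasurable 1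
    filter_upwards with ω
    rw [Real.norm_eq_abs, abs_of_nonneg (hc0 e ω)]
    exact hc1 e he ω
  let w : V × V → ℝ := fun e => if e ∈ E then ∫ ω, c e ω ∂ν else 0
  have hw : ∀ e, 0 ≤ w e := by
    intro e
    simp only [w]
    split_ifs
    · exact integral_nonneg (hc0 e)
    · exact le_rfl
  -- the mass inside `W`
  let Q : Finset V → ℝ := fun W => ∑ e ∈ W ×ˢ W, w e
  let q : Finset V → Ω → ℝ := fun W ω => ∑ e ∈ (W ×ˢ W).filter (· ∈ E), c e ω
  have hqint : ∀ W, Integrable (q W) ν := by
    intro W
    apply integrable_finsetSum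
    intro e he
    exact hcint e (Finset.mem_filter.mp he).2
  have hQq : ∀ W, Q W = ∫ ω, q W ω ∂ν := by
    intro W
    simp only [Q, q, w]
    rw [integral_finsetSum _ (fun e he => hcint e (Finset.mem_filter.mp he).2),
      Finset.sum_filter]
  have hq0 : ∀ W ω, 0 ≤ q W ω := fun W ω => Finset.sum_nonneg (fun e _ => hc0 e ω)
  have hq1 : ∀ W ω, q W ω ≤ 1 := by
    intro W ω
    apply hcle
    intro e he
    exact (Finset.mem_filter.mp he).2
  -- total mass
  have htotal : Q V' = ν.real Set.univ := by
    rw [hQq]
    have h1 : ∀ᵐ ω ∂ν, q V' ω = 1 := by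
      filter_upwards [htight] with ω hω
      obtain ⟨e0, he0, he0'⟩ := hω
      have hkpos : 0 < k ω := by
        apply lt_of_lt_of_le zero_lt_one
        have : ind e0 ω = 1 := by
          simp only [ind, Set.indicator_apply]
          rw [if_pos]
          exact he0'
        rw [← this]
        exact Finset.single_le_sum (f := fun e => ind e ω) (fun e _ => hind0 e ω) he0
      have hfil : (V' ×ˢ V').filter (· ∈ E) = E := by
        ext e
        simp only [Finset.mem_filter]
        constructor
        · exact fun h => h.2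
        · exact fun h => ⟨hEV h, h⟩
      simp only [q, c]
      rw [hfil, ← Finset.sum_div]
      exact div_self hkpos.ne'
    rw [integral_congr_ae h1]
    simp
  -- the extremal subset
  set α := 1 / (2 * (p + 1)) with hα_def
  have hp0 : 0 < p := by linarith
  have hα : 0 < α := by positivity
  let wt : Finset V → ℝ := fun W => (W.card : ℝ) * phi α W.card
  have hwt : ∀ W : Finset V, W.Nonempty → 0 < wt W := by
    intro W hW
    have h1 : (1:ℝ) ≤ (W.card : ℝ) := by exact_mod_cast Finset.card_pos.mpr hW
    have h2 := phi_ge_one hα h1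
    exact mul_pos (by linarith) (by linarith)
  obtain ⟨U, hU, hUmax⟩ := Finset.exists_max_image (V'.powerset.filter (fun W => W.Nonempty))
    (fun W => Q W / wt W) ⟨V', by simp [hV']⟩
  rw [Finset.mem_filter, Finset.mem_powerset] at hU
  obtain ⟨hUV, hUne⟩ := hU
  set D := Q U / wt U with hD_def
  have hmax : ∀ W ⊆ U, Q W ≤ D * wt W := by
    intro W hW
    by_cases hWne : W.Nonempty
    · have := hUmax W (by
        rw [Finset.mem_filter, Finset.mem_powerset]
        exact ⟨hW.trans hUV, hWne⟩)
      rwa [div_le_iff₀ (hwt W hWne)] at this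
    · rw [Finset.not_nonempty_iff_eq_empty] at hWne
      simp [hWne, Q, wt]
  have hV'D : Q V' ≤ D * wt V' := by
    have := hUmax V' (by
        rw [Finset.mem_filter, Finset.mem_powerset]
        exact ⟨le_rfl, hV'⟩)
    rwa [div_le_iff₀ (hwt V' hV')] at this
  have hUeq : D * wt U ≤ Q U := by
    rw [hD_def, div_mul_cancel₀ _ (hwt U hUne).ne']
  have hDK : D ≤ Kst p B := by
    by_cases hD0 : D ≤ 0
    · linarith
    push Not at hD0
    have hQU : 0 < Q U := lt_of_lt_of_le (mul_pos hD0 (hwt U hUne)) hUeq
    -- find a good function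
    have hgood : ∃ ω, 0 < q U ω ∧ ∑ e ∈ U ×ˢ U, w e * |G e.1 ω - G e.2 ω| ^ p ≤ B := by
      by_contra hcon
      push Not at hcon
      let R : Ω → ℝ := fun ω => ∑ e ∈ (U ×ˢ U).filter (· ∈ E), w e * |G e.1 ω - G e.2 ω| ^ p
      have hR : ∀ ω, ∑ e ∈ U ×ˢ U, w e * |G e.1 ω - G e.2 ω| ^ p = R ω := by
        intro ω
        simp only [R]
        rw [Finset.sum_filter]
        apply Finset.sum_congr rfl
        intro e _
        split_ifs with he
        · rfl
        · simp [w, he]
      have hRint : Integrable R ν := by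
        apply integrable_finsetSum
        intro e he
        exact (hint e (Finset.mem_filter.mp he).2).const_mul _
      have hR0 : ∀ ω, 0 ≤ R ω := fun ω => Finset.sum_nonneg (fun e _ =>
        mul_nonneg (hw e) (Real.rpow_nonneg (abs_nonneg _) _))
      have hRle : ∫ ω, R ω ∂ν ≤ B * Q U := by
        simp only [R]
        rw [integral_finsetSum _ (fun e he => (hint e (Finset.mem_filter.mp he).2).const_mul _)]
        have : B * Q U = ∑ e ∈ (U ×ˢ U).filter (· ∈ E), B * w e := by
          rw [← Finset.mul_sum, Finset.sum_filter]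
          congr 1
          apply Finset.sum_congr rfl
          intro e _
          split_ifs with he
          · rfl
          · simp [w, he]
        rw [this]
        apply Finset.sum_le_sum
        intro e he
        rw [integral_const_mul, mul_comm B]
        exact mul_le_mul_of_nonneg_left (hbd e (Finset.mem_filter.mp he).2) (hw e)
      have hqRint : Integrable (fun ω => q U ω * R ω) ν := by
        apply Integrable.mono hRint
        · exact (hqint U).aestronglyMeasurable.mul hRint.aestronglyMeasurable
        · filter_upwards with ω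
          rw [Real.norm_eq_abs, Real.norm_eq_abs, abs_mul, abs_of_nonneg (hq0 U ω)]
          exact mul_le_of_le_one_left (abs_nonneg _) (hq1 U ω)
      have hh0 : ∀ ω, 0 ≤ q U ω * R ω - B * q U ω := by
        intro ω
        rcases eq_or_lt_of_le (hq0 U ω) with h | h
        · rw [← h]; simp
        · have := hcon ω h
          rw [hR] at this
          nlinarith
      have hhint : Integrable (fun ω => q U ω * R ω - B * q U ω) ν :=
        hqRint.sub ((hqint U).const_mul B)
      have hhle : ∫ ω, (q U ω * R ω - B * q U ω) ∂ν ≤ 0 := by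
        rw [integral_sub hqRint ((hqint U).const_mul B), integral_const_mul, ← hQq]
        have : ∫ ω, q U ω * R ω ∂ν ≤ ∫ ω, R ω ∂ν := by
          apply integral_mono hqRint hRint
          intro ω
          exact mul_le_of_le_one_left (hR0 ω) (hq1 U ω)
        linarith
      have hhz : ∫ ω, (q U ω * R ω - B * q U ω) ∂ν = 0 :=
        le_antisymm hhle (integral_nonneg hh0)
      rw [integral_eq_zero_iff_of_nonneg hh0 hhint] at hhz
      have hqz : ∀ᵐ ω ∂ν, q U ω = 0 := by
        filter_upwards [hhz] with ω hω
        by_contra hne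
        have hpos : 0 < q U ω := lt_of_le_of_ne (hq0 U ω) (Ne.symm hne)
        have := hcon ω hpos
        rw [hR] at this
        simp only [Pi.zero_apply] at hω
        nlinarith
      have : Q U = 0 := by
        rw [hQq, integral_congr_ae hqz]
        simp
      linarith
    obtain ⟨ω, hω1, hω2⟩ := hgood
    -- a tight pair inside U
    have : ∃ e ∈ (U ×ˢ U).filter (· ∈ E), 0 < c e ω := by
      by_contra hno
      push Not at hno
      have : q U ω ≤ 0 := Finset.sum_nonpos hno
      linarith
    obtain ⟨e, he, hce⟩ := this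
    have hetight : 1 ≤ |G e.1 ω - G e.2 ω| := by
      by_contra hlt
      have : ind e ω = 0 := by
        simp only [ind, Set.indicator_apply]
        rw [if_neg]
        exact hlt
      simp only [c, this, zero_div] at hce
      exact lt_irrefl _ hce
    have heU := Finset.mem_product.mp (Finset.mem_filter.mp he).1
    exact dense_lemma hp hB U w hw hmax hUeq (fun v => G v ω) hω2 e.1 e.2 heU.1 heU.2 hetight
  rw [← htotal]
  have hwt2 : wt V' ≤ 2 * V'.card := by
    have h1 : phi α V'.card ≤ 2 := phi_le_two (by positivity)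
    have h2 : (0:ℝ) ≤ V'.card := by positivity
    simp only [wt]
    nlinarith
  have hwt0 := hwt V' hV'
  calc Q V' ≤ D * wt V' := hV'D
    _ ≤ Kst p B * wt V' := mul_le_mul_of_nonneg_right hDK hwt0.le
    _ ≤ Kst p B * (2 * V'.card) := mul_le_mul_of_nonneg_left hwt2 hK.le
    _ = 2 * Kst p B * V'.card := by ring

end Vale.Agent.Lib.H20
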